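import Mathlib

/-!
# P022-X, block [EXP]: calculus of expansions `∑ a_n e(n τ / R)`, `a_n` in an additive subgroup
-/

open Complex UpperHalfPlane
open scoped Real MatrixGroups ModularForm

noncomputable section

namespace Vale.Agent.P022.H220

/-- `F` has an expansion in `e(τ / R)` with coefficients in `A`. -/
def Ex (A : AddSubgroup ℂ) (R : ℕ) (F : ℍ → ℂ) : Prop :=
  ∃ a : ℕ → ℂ, (∀ n, a n ∈ A) ∧
    ∀ τ : ℍ, HasSum (fun n : ℕ => a n * cexp (2 * π * Complex.I * n * (τ : ℂ) / R)) (F τ)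

variable {A B C : AddSubgroup ℂ} {R S : ℕ} {F G : ℍ → ℂ}

theorem hs_congr' {ι : Type*} {f g : ι → ℂ} {x : ℂ} (h : HasSum g x) (e : ∀ m, f m = g m) :
    HasSum f x := by
  rw [funext e]
  exact h

namespace Ex

theorem mono (h : A ≤ B) (hF : Ex A R F) : Ex B R F := by
  obtain ⟨a, ha, hs⟩ := hF
  exact ⟨a, fun n => h (ha n), hs⟩

theorem congr (h : ∀ τ, G τ = F τ) (hF : Ex A R F) : Ex A R G := by
  rwa [funext h]

theorem zero : Ex A R (fun _ => 0) :=
  ⟨fun _ => 0, fun _ => A.zero_mem, fun τ => hs_congr' hasSum_zero fun m => by simp⟩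

theorem const {c : ℂ} (hc : c ∈ A) : Ex A R (fun _ => c) := by
  classical
  refine ⟨fun n => if n = 0 then c else 0, fun n => ?_, fun τ => ?_⟩
  · dsimp only
    split_ifs
    · exact hc
    · exact A.zero_mem
  · refine hs_congr' (hasSum_ite_eq (0 : ℕ) c) fun n => ?_
    by_cases h : n = 0
    · subst h; simp
    · simp [h]

theorem add (hF : Ex A R F) (hG : Ex A R G) : Ex A R (fun τ => F τ + G τ) := by
  obtain ⟨a, ha, hs⟩ := hF
  obtain ⟨b, hb, ht⟩ := hG
  exact ⟨fun n => a n + b n, fun n => A.add_mem (ha n) (hb n), fun τ =>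
    hs_congr' ((hs τ).add (ht τ)) fun n => by ring⟩

theorem smul {c : ℂ} (hc : ∀ a ∈ A, c * a ∈ B) (hF : Ex A R F) : Ex B R (fun τ => c * F τ) := by
  obtain ⟨a, ha, hs⟩ := hF
  exact ⟨fun n => c * a n, fun n => hc _ (ha n), fun τ =>
    hs_congr' ((hs τ).mul_left c) fun n => by ring⟩

theorem neg (hF : Ex A R F) : Ex A R (fun τ => -F τ) :=
  congr (fun τ => by simp) (smul (c := -1) (B := A) (fun a ha => by simpa using ha) hF)

theorem sub (hF : Ex A R F) (hG : Ex A R G) : Ex A R (fun τ => F τ - G τ) :=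
  congr (fun τ => by rw [sub_eq_add_neg]) (add hF (neg hG))

theorem sum {ι : Type*} (s : Finset ι) {F : ι → ℍ → ℂ} (h : ∀ i ∈ s, Ex A R (F i)) :
    Ex A R (fun τ => ∑ i ∈ s, F i τ) := by
  classical
  induction s using Finset.induction_on with
  | empty => simpa using (zero : Ex A R _)
  | insert i s hi IH =>
    refine congr (fun τ => Finset.sum_insert hi) (add (h i (Finset.mem_insert_self i s))
      (IH fun j hj => h j (Finset.mem_insert_of_mem hj)))

/-- Cauchy product -/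
theorem mul (hm : ∀ a ∈ A, ∀ b ∈ B, a * b ∈ C) (hF : Ex A R F) (hG : Ex B R G) :
    Ex C R (fun τ => F τ * G τ) := by
  obtain ⟨a, ha, hs⟩ := hF
  obtain ⟨b, hb, ht⟩ := hG
  refine ⟨fun n => ∑ kl ∈ Finset.HasAntidiagonal.antidiagonal n, a kl.1 * b kl.2, fun n =>
    C.sum_mem fun kl _ => hm _ (ha _) _ (hb _), fun τ => ?_⟩
  have h1 : Summable fun n : ℕ => ‖a n * cexp (2 * π * Complex.I * n * (τ : ℂ) / R)‖ :=
    (hs τ).summable.norm
  have h2 : Summable fun n : ℕ => ‖b n * cexp (2 * π * Complex.I * n * (τ : ℂ) / R)‖ :=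
    (ht τ).summable.norm
  have h3 := (summable_norm_sum_mul_antidiagonal_of_summable_norm h1 h2).of_norm.hasSum
  rw [← tsum_mul_tsum_eq_tsum_sum_antidiagonal_of_summable_norm h1 h2, (hs τ).tsum_eq,
    (ht τ).tsum_eq] at h3
  refine hs_congr' h3 fun n => ?_
  rw [Finset.sum_mul]
  refine Finset.sum_congr rfl fun kl hkl => ?_
  rw [Finset.HasAntidiagonal.mem_antidiagonal] at hkl
  have e : cexp (2 * π * Complex.I * n * (τ : ℂ) / R) = cexp (2 * π * Complex.I * kl.1 * (τ : ℂ) / R) *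
      cexp (2 * π * Complex.I * kl.2 * (τ : ℂ) / R) := by
    rw [← Complex.exp_add, ← hkl]
    congr 1
    push_cast
    ring
  rw [e]
  ring

theorem pow {O : Subring ℂ} (hF : Ex O.toAddSubgroup R F) (n : ℕ) :
    Ex O.toAddSubgroup R (fun τ => F τ ^ n) := by
  induction n with
  | zero => exact congr (fun τ => pow_zero _) (const (c := 1) O.one_mem)
  | succ n IH =>
    exact congr (fun τ => pow_succ _ _) (mul (fun a ha b hb => O.mul_mem ha hb) IH hF)

/-- enlarging `R` -/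
theorem up (hR : 0 < R) (hS : 0 < S) (hF : Ex A R F) : Ex A (R * S) F := by
  classical
  obtain ⟨a, ha, hs⟩ := hF
  have inj : Function.Injective (fun m : ℕ => S * m) := fun a b h =>
    Nat.eq_of_mul_eq_mul_left hS h
  have hR0 : (R : ℂ) ≠ 0 := by exact_mod_cast hR.ne'
  have hS0 : (S : ℂ) ≠ 0 := by exact_mod_cast hS.ne'
  refine ⟨fun n => if S ∣ n then a (n / S) else 0, fun n => ?_, fun τ => ?_⟩
  · dsimp only
    split_ifs
    · exact ha _
    · exact A.zero_mem
  · refine (inj.hasSum_iff ?_).1 (hs_congr' (hs τ) fun n => ?_)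
    · intro x hx
      dsimp only
      rw [if_neg, zero_mul]
      rintro ⟨y, rfl⟩
      exact hx ⟨y, rfl⟩
    · simp only [Function.comp_apply, dvd_mul_right, if_true]
      rw [Nat.mul_div_cancel_left _ hS]
      congr 2
      push_cast
      field_simp

/-- `A` is stable under roots of unity -/
def RootStable (A : AddSubgroup ℂ) : Prop := ∀ a ∈ A, ∀ z : ℂ, ∀ n : ℕ, 0 < n → z ^ n = 1 → z * a ∈ A

/-- the substitution `τ ↦ (c τ + t) / d` -/
theorem tri (hR : 0 < R) (hA : RootStable A) {c d : ℕ} (hc : 0 < c) (hd : 0 < d) (t : ℤ)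
    (h : ∀ τ : ℍ, ∃ τ' : ℍ, (τ' : ℂ) = (c * τ + t) / d ∧ G τ = F τ')
    (hF : Ex A R F) : Ex A (R * d) G := by
  classical
  obtain ⟨a, ha, hs⟩ := hF
  have inj : Function.Injective (fun m : ℕ => c * m) := fun a b h =>
    Nat.eq_of_mul_eq_mul_left hc h
  have hR0 : (R : ℂ) ≠ 0 := by exact_mod_cast hR.ne'
  have hd0 : (d : ℂ) ≠ 0 := by exact_mod_cast hd.ne'
  have hz : ∀ n : ℕ, cexp (2 * π * Complex.I * n * t / (d * R)) ^ (d * R) = 1 := by
    intro n
    rw [← Complex.exp_nat_mul]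
    have : ((d * R : ℕ) : ℂ) * (2 * π * Complex.I * n * t / (d * R)) = (n * t : ℤ) * (2 * π * Complex.I) := by
      push_cast
      field_simp
    rw [this, Complex.exp_int_mul_two_pi_mul_I]
  refine ⟨fun n => if c ∣ n then cexp (2 * π * Complex.I * (n / c : ℕ) * t / (d * R)) * a (n / c) else 0,
    fun n => ?_, fun τ => ?_⟩
  · dsimp only
    split_ifs
    · exact hA _ (ha _) _ (d * R) (Nat.mul_pos hd hR) (hz _)
    · exact A.zero_mem
  · obtain ⟨τ', h1, h2⟩ := h τ
    rw [h2]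
    refine (inj.hasSum_iff ?_).1 (hs_congr' (hs τ') fun n => ?_)
    · intro x hx
      dsimp only
      rw [if_neg, zero_mul]
      rintro ⟨y, rfl⟩
      exact hx ⟨y, rfl⟩
    · simp only [Function.comp_apply, dvd_mul_right, if_true]
      rw [Nat.mul_div_cancel_left _ hc, h1, mul_comm (cexp _) (a n), mul_assoc, ← Complex.exp_add]
      congr 2
      push_cast
      field_simp
      ring

/-- the substitution `τ ↦ c τ` -/
theorem dil {c : ℕ} (hc : 0 < c) (h : ∀ τ : ℍ, ∃ τ' : ℍ, (τ' : ℂ) = c * τ ∧ G τ = F τ')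
    (hF : Ex A R F) : Ex A R G := by
  classical
  obtain ⟨a, ha, hs⟩ := hF
  have inj : Function.Injective (fun m : ℕ => c * m) := fun a b h =>
    Nat.eq_of_mul_eq_mul_left hc h
  refine ⟨fun n => if c ∣ n then a (n / c) else 0, fun n => ?_, fun τ => ?_⟩
  · dsimp only
    split_ifs
    · exact ha _
    · exact A.zero_mem
  · obtain ⟨τ', h1, h2⟩ := h τ
    rw [h2]
    refine (inj.hasSum_iff ?_).1 (hs_congr' (hs τ') fun n => ?_)
    · intro x hx
      dsimp only
      rw [if_neg, zero_mul]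
      rintro ⟨y, rfl⟩
      exact hx ⟨y, rfl⟩
    · simp only [Function.comp_apply, dvd_mul_right, if_true]
      rw [Nat.mul_div_cancel_left _ hc, h1]
      congr 2
      push_cast
      ring

/-- `F = 1 + 2 X` implies `F ^ (2 ^ n) = 1 + 2 ^ (n + 1) Y` -/
theorem one_add_pow {O : Subring ℂ} (hF : Ex O.toAddSubgroup R (fun τ => (F τ - 1) / 2)) (n : ℕ) :
    Ex O.toAddSubgroup R (fun τ => (F τ ^ (2 ^ n) - 1) / 2 ^ (n + 1)) := by
  induction n with
  | zero => exact congr (fun τ => by simp) hF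
  | succ n IH =>
    -- `F ^ 2 - 1 = (F - 1) (F - 1 + 2)`, `F = 1 + 2 ^ (n + 1) Y`
    have h1 : Ex O.toAddSubgroup R
        (fun τ => (F τ ^ (2 ^ n) - 1) / 2 ^ (n + 1) * ((F τ ^ (2 ^ n) - 1) / 2 ^ (n + 1))) :=
      mul (fun a ha b hb => O.mul_mem ha hb) IH IH
    have h2 : Ex O.toAddSubgroup R (fun τ => 2 ^ n *
        ((F τ ^ (2 ^ n) - 1) / 2 ^ (n + 1) * ((F τ ^ (2 ^ n) - 1) / 2 ^ (n + 1)))) :=
      smul (fun a ha => O.mul_mem (O.pow_mem (ofNat_mem O 2) n) ha) h1
    refine congr (fun τ => ?_) (add h2 IH)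
    have e : (2 : ℕ) ^ (n + 1) = 2 ^ n * 2 := pow_succ 2 n
    rw [e, pow_mul]
    set z := F τ ^ (2 ^ n)
    have h0 : (2 : ℂ) ^ n ≠ 0 := pow_ne_zero _ two_ne_zero
    rw [pow_succ (2 : ℂ) (n + 1), pow_succ (2 : ℂ) n]
    field_simp
    ring

theorem cexp_pow (τ : ℍ) (R n : ℕ) : cexp (2 * π * Complex.I * n * (τ : ℂ) / R) =
    cexp (2 * π * Complex.I * (τ : ℂ) / R) ^ n := by
  rw [← Complex.exp_nat_mul]
  congr 1
  ring

theorem coeff_zero {c : ℕ → ℂ}
    (h : ∀ z : ℂ, z ≠ 0 → ‖z‖ < 1 → HasSum (fun n => c n * z ^ n) 0) : ∀ n, c n = 0 := by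
  set p := FormalMultilinearSeries.ofScalars ℂ c with hp
  set f : ℂ → ℂ := fun z => ∑' n, c n * z ^ n with hf
  have h1 : HasFPowerSeriesAt f p 0 := by
    rw [hasFPowerSeriesAt_iff]
    filter_upwards [Metric.ball_mem_nhds (0 : ℂ) one_pos] with z hz
    rw [mem_ball_zero_iff] at hz
    simp only [zero_add, hp, FormalMultilinearSeries.coeff_ofScalars, smul_eq_mul]
    have hs : Summable (fun n => c n * z ^ n) := by
      by_cases h0 : z = 0
      · refine summable_of_ne_finset_zero (s := {0}) fun n hn => ?_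
        rw [Finset.mem_singleton] at hn
        rw [h0, zero_pow hn, mul_zero]
      · exact (h z h0 hz).summable
    have := hs.hasSum
    simpa only [mul_comm] using this
  have h2 : ContinuousAt f 0 := h1.continuousAt
  have h3 : ∀ᶠ z in nhdsWithin (0 : ℂ) {0}ᶜ, f z = 0 := by
    filter_upwards [self_mem_nhdsWithin,
      mem_nhdsWithin_of_mem_nhds (Metric.ball_mem_nhds (0 : ℂ) one_pos)] with z hz hz'
    exact (h z hz (mem_ball_zero_iff.mp hz')).tsum_eq
  have h4 : f 0 = 0 := by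
    refine tendsto_nhds_unique (h2.tendsto.mono_left nhdsWithin_le_nhds)
      (Filter.Tendsto.congr' (h3.mono fun z hz => hz.symm) tendsto_const_nhds)
  have h5 : ∀ᶠ z in nhds (0 : ℂ), f z = 0 := by
    filter_upwards [Metric.ball_mem_nhds (0 : ℂ) one_pos] with z hz
    rw [mem_ball_zero_iff] at hz
    by_cases h0 : z = 0
    · rw [h0, h4]
    · exact (h z h0 hz).tsum_eq
  have h6 := h1.eq_zero_of_eventually h5
  intro n
  have h7 : p.coeff n = c n := by rw [hp, FormalMultilinearSeries.coeff_ofScalars]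
  rw [← h7, h6]
  rfl

/-- every `z` in the punctured disc is `e(τ / R)` -/
theorem exists_tau (hR : 0 < R) {z : ℂ} (hz : z ≠ 0) (hz' : ‖z‖ < 1) :
    ∃ τ : ℍ, cexp (2 * π * Complex.I * (τ : ℂ) / R) = z := by
  have hR' : (0 : ℝ) < R := by exact_mod_cast hR
  have hR0 : (R : ℂ) ≠ 0 := by exact_mod_cast hR.ne'
  have hπ : (π : ℂ) ≠ 0 := by exact_mod_cast Real.pi_ne_zero
  have him : 0 < ((R : ℂ) * Complex.log z / (2 * π * Complex.I)).im := by
    have e : (R : ℂ) * Complex.log z / (2 * π * Complex.I) =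
        ((R / (2 * π) : ℝ) : ℂ) * (-Complex.I * Complex.log z) := by
      push_cast
      field_simp
      rw [Complex.I_sq]
      ring
    have h1 : Real.log ‖z‖ < 0 := Real.log_neg (norm_pos_iff.mpr hz) hz'
    rw [e, Complex.im_ofReal_mul]
    have h2 : (-Complex.I * Complex.log z).im = -Real.log ‖z‖ := by
      rw [neg_mul, Complex.neg_im, Complex.I_mul_im, Complex.log_re]
    rw [h2]
    have : 0 < (R : ℝ) / (2 * π) := by positivity
    nlinarith
  refine ⟨⟨_, him⟩, ?_⟩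
  have : 2 * π * Complex.I * ((R : ℂ) * Complex.log z / (2 * π * Complex.I)) / R =
      Complex.log z := by
    field_simp
  rw [UpperHalfPlane.coe_mk, this, Complex.exp_log hz]

/-- the coefficients are unique -/
theorem unique (hR : 0 < R) {a b : ℕ → ℂ}
    (h : ∀ τ : ℍ, HasSum (fun n : ℕ => a n * cexp (2 * π * Complex.I * n * (τ : ℂ) / R)) (F τ))
    (h' : ∀ τ : ℍ, HasSum (fun n : ℕ => b n * cexp (2 * π * Complex.I * n * (τ : ℂ) / R)) (F τ)) :
    ∀ n, a n = b n := by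
  intro n
  rw [← sub_eq_zero]
  refine coeff_zero (c := fun n => a n - b n) (fun z hz hz' => ?_) n
  obtain ⟨τ, hτ⟩ := exists_tau hR hz hz'
  have h1 := (h τ).sub (h' τ)
  rw [sub_self] at h1
  refine hs_congr' h1 fun m => ?_
  rw [cexp_pow, hτ]
  ring

end Ex

end Vale.Agent.P022.H220
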