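import Vale.Agent.P022.H20.GalDef

/-! # P022: dihedral representations (definitions) -/

open NumberField Matrix

noncomputable section

namespace Vale.Agent.P022

/-- `r` is absolutely irreducible: no line of `Ē²` is stable under `r` -/
def AbsIrr {E : Type} [Field E] (r : GQ →* GL (Fin 2) E) : Prop :=
  ∀ w : Fin 2 → AlgebraicClosure E, w ≠ 0 → ∃ g : GQ, ∀ a : AlgebraicClosure E,
    ((r g : Matrix (Fin 2) (Fin 2) E).map (algebraMap E (AlgebraicClosure E))) *ᵥ w ≠ a • w

/-- the restriction of `r` to `G_K` is not absolutely irreducible: it has a stable line in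
`Ē²` -/
def RedOn {K : Type} [Field K] {E : Type} [Field E] (j : K →+* Qb) (r : GQ →* GL (Fin 2) E) :
    Prop :=
  ∃ w : Fin 2 → AlgebraicClosure E, w ≠ 0 ∧ ∀ g : GK j, ∃ a : AlgebraicClosure E,
    ((r g : Matrix (Fin 2) (Fin 2) E).map (algebraMap E (AlgebraicClosure E))) *ᵥ w = a • w

/-- `r` is dihedral: there is an open subgroup of index two (that is, a quadratic field `K`)
outside which the trace of `r` vanishes (that is, `r ≅ r ⊗ ε` with the quadratic character `ε` of
`K`, when `r` is absolutely irreducible) -/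
def Dihedral {E : Type} [Field E] (r : GQ →* GL (Fin 2) E) : Prop :=
  ∃ H : Subgroup GQ, IsOpen (H : Set GQ) ∧ H.index = 2 ∧
    ∀ g : GQ, g ∉ H → (r g : Matrix (Fin 2) (Fin 2) E).trace = 0

end Vale.Agent.P022
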