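import Vale.Agent.P022.H220.Line
import Vale.Agent.P022.H220.DihDef
import Vale.Agent.P022.H20.Gal
import Vale.Agent.P022.H916.Fld

/-! # P022: dihedral representations

`r` absolutely irreducible: the restriction of `r` to `G_K` is reducible over the algebraic
closure of `E` for some quadratic field `K`, if and only if the trace of `r` vanishes outside an
open subgroup of index two (`r ≅ r ⊗ ε`), if and only if `r` is commutative on an open subgroup of
index two. -/

open NumberField Matrix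
open scoped Topology

noncomputable section

namespace Vale.Agent.P022

namespace H220

section Mat

variable {F : Type} [Field F]

/-- two matrices orthogonal (with their product) to an invertible traceless matrix commute -/
lemma comm_of_trace {A B C : Matrix (Fin 2) (Fin 2) F} (hC : C.det ≠ 0) (h0 : C.trace = 0)
    (h1 : (A * C).trace = 0) (h2 : (B * C).trace = 0) (h3 : (A * B * C).trace = 0) :
    A * B = B * A := by
  rw [Matrix.det_fin_two] at hC
  simp only [Matrix.trace_fin_two, Matrix.mul_apply, Fin.sum_univ_two] at h0 h1 h2 h3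
  have e0 : C 1 1 = - C 0 0 := by linear_combination h0
  rw [e0] at hC h1 h2 h3
  set x := C 0 0
  set y := C 1 0
  set z := C 0 1
  set P := A 0 1 * B 1 0 - B 0 1 * A 1 0 with hP
  set Q := (A 0 0 - A 1 1) * B 0 1 - (B 0 0 - B 1 1) * A 0 1 with hQ
  set R := A 1 0 * (B 0 0 - B 1 1) - B 1 0 * (A 0 0 - A 1 1) with hR
  have r1 : x * P + z * R = 0 := by
    rw [hP, hR]
    linear_combination h3 - A 0 0 * h2 - B 1 1 * h1
  have r2 : y * P = x * R := by
    rw [hP, hR]
    linear_combination B 1 0 * h1 - A 1 0 * h2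
  have r3 : z * P = x * Q := by
    rw [hP, hQ]
    linear_combination A 0 1 * h2 - B 0 1 * h1
  have r4 : z * R = y * Q := by
    rw [hR, hQ]
    linear_combination (B 0 0 - B 1 1) * h1 - (A 0 0 - A 1 1) * h2
  have hd : x * x + z * y ≠ 0 := by
    intro h
    apply hC
    linear_combination -h
  have p0 : P = 0 := by
    have : (x * x + z * y) * P = 0 := by linear_combination x * r1 + z * r2
    exact (mul_eq_zero.1 this).resolve_left hd
  have q0 : Q = 0 := by
    have : (x * x + z * y) * Q = 0 := by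
      rw [p0] at r3 r1
      linear_combination (-x) * r3 - z * r4 + z * r1
    exact (mul_eq_zero.1 this).resolve_left hd
  have s0 : R = 0 := by
    have : (x * x + z * y) * R = 0 := by
      rw [p0] at r2 r1
      linear_combination (-x) * r2 + y * r1
    exact (mul_eq_zero.1 this).resolve_left hd
  ext i k
  fin_cases i <;> fin_cases k <;>
    simp only [Matrix.mul_apply, Fin.sum_univ_two, Fin.zero_eta, Fin.mk_one, Fin.isValue]
  · linear_combination p0
  · linear_combination q0
  · linear_combination s0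
  · linear_combination -p0

/-- a commuting family of `2 × 2` matrices over an algebraically closed field has a common
eigenvector -/
lemma common_vec [IsAlgClosed F] {ι : Type*} (A : ι → Matrix (Fin 2) (Fin 2) F)
    (h : ∀ s t, A s * A t = A t * A s) :
    ∃ w : Fin 2 → F, w ≠ 0 ∧ ∀ s, ∃ a : F, A s *ᵥ w = a • w := by
  by_cases hsc : ∀ s, ∃ a : F, A s = a • (1 : Matrix (Fin 2) (Fin 2) F)
  · refine ⟨![1, 0], fun h0 => one_ne_zero (congrFun h0 0), fun s => ?_⟩
    obtain ⟨a, ha⟩ := hsc s
    exact ⟨a, by rw [ha, Matrix.smul_mulVec, Matrix.one_mulVec]⟩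
  · rw [not_forall] at hsc
    obtain ⟨s, hs⟩ := hsc
    obtain ⟨l, hl⟩ := Module.End.exists_eigenvalue (Matrix.toLin' (A s))
    obtain ⟨w, hw⟩ := hl.exists_hasEigenvector
    have hw0 : w ≠ 0 := hw.2
    have hw1 : A s *ᵥ w = l • w := by
      have := hw.apply_eq_smul
      rwa [Matrix.toLin'_apply] at this
    refine ⟨w, hw0, fun t => ?_⟩
    by_contra hcon
    rw [not_exists] at hcon
    have hd : H20.dt w (A t *ᵥ w) ≠ 0 := H20.dt_ne hw0 hcon
    have h2 : A s *ᵥ (A t *ᵥ w) = l • (A t *ᵥ w) := by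
      rw [Matrix.mulVec_mulVec, h s t, ← Matrix.mulVec_mulVec, hw1, Matrix.mulVec_smul]
    apply hs
    refine ⟨l, ?_⟩
    have h3 : A s - (l • (1 : Matrix (Fin 2) (Fin 2) F)) + 1 = 1 := by
      apply H20.eq_one hd
      · rw [Matrix.add_mulVec, Matrix.sub_mulVec, hw1, Matrix.smul_mulVec, Matrix.one_mulVec,
          sub_self, zero_add]
      · rw [Matrix.add_mulVec, Matrix.sub_mulVec, h2, Matrix.smul_mulVec, Matrix.one_mulVec,
          sub_self, zero_add]
    exact sub_eq_zero.1 (by simpa using h3)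

end Mat

section

variable {E : Type} [Field E]

/-- the trace vanishes outside `H`: `r` is commutative on `H` -/
lemma comm_of_dihedral (r : GQ →* GL (Fin 2) E) (H : Subgroup GQ) (hi : H.index = 2)
    (ht : ∀ g : GQ, g ∉ H → (r g : Matrix (Fin 2) (Fin 2) E).trace = 0) (g h : GQ)
    (hg : g ∈ H) (hh : h ∈ H) : r g * r h = r h * r g := by
  obtain ⟨c, hc⟩ : ∃ c : GQ, c ∉ H := by
    by_contra hcon
    push Not at hcon
    have : H = ⊤ := by
      rw [eq_top_iff]; intro x _; exact hcon x
    rw [this, Subgroup.index_top] at hi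
    norm_num at hi
  have hm : ∀ x ∈ H, x * c ∉ H := by
    intro x hx h'
    exact hc (by simpa using H.mul_mem (H.inv_mem hx) h')
  apply Units.ext
  rw [Units.val_mul, Units.val_mul]
  have hdet : (r c : Matrix (Fin 2) (Fin 2) E).det ≠ 0 := by
    rw [← Matrix.GeneralLinearGroup.val_det_apply]
    exact Units.ne_zero _
  refine comm_of_trace (C := (r c : Matrix (Fin 2) (Fin 2) E)) hdet (ht c hc) ?_ ?_ ?_
  · have := ht _ (hm g hg)
    rwa [map_mul, Units.val_mul] at this
  · have := ht _ (hm h hh)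
    rwa [map_mul, Units.val_mul] at this
  · have := ht _ (hm _ (H.mul_mem hg hh))
    rwa [map_mul, map_mul, Units.val_mul, Units.val_mul] at this

/-- `r` over the algebraic closure -/
def rb (r : GQ →* GL (Fin 2) E) : GQ →* GL (Fin 2) (AlgebraicClosure E) :=
  (Matrix.GeneralLinearGroup.map (algebraMap E (AlgebraicClosure E))).comp r

lemma rb_coe (r : GQ →* GL (Fin 2) E) (g : GQ) :
    (rb r g : Matrix (Fin 2) (Fin 2) (AlgebraicClosure E)) =
      (r g : Matrix (Fin 2) (Fin 2) E).map (algebraMap E (AlgebraicClosure E)) := rfl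

lemma rb_trace (r : GQ →* GL (Fin 2) E) (g : GQ) :
    (rb r g : Matrix (Fin 2) (Fin 2) (AlgebraicClosure E)).trace =
      algebraMap E (AlgebraicClosure E) (r g : Matrix (Fin 2) (Fin 2) E).trace := by
  rw [rb_coe, Matrix.trace_fin_two, Matrix.trace_fin_two, map_add]
  rfl

/-- `r` commutative on `G_K`: reducible on `G_K` -/
lemma redOn_of_comm {K : Type} [Field K] (j : K →+* Qb) (r : GQ →* GL (Fin 2) E)
    (h : ∀ g ∈ GK j, ∀ h ∈ GK j, r g * r h = r h * r g) : RedOn j r := by
  obtain ⟨w, hw, h1⟩ := common_vec (F := AlgebraicClosure E)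
    (fun g : GK j => (rb r g : Matrix (Fin 2) (Fin 2) (AlgebraicClosure E))) (by
      intro s t
      have h2 : rb r s * rb r t = rb r t * rb r s := by
        rw [← (rb r).map_mul, ← (rb r).map_mul]
        change Matrix.GeneralLinearGroup.map _ (r (s * t)) =
          Matrix.GeneralLinearGroup.map _ (r (t * s))
        rw [r.map_mul, r.map_mul, h s s.2 t t.2]
      exact congrArg (fun u : GL (Fin 2) (AlgebraicClosure E) =>
        (u : Matrix (Fin 2) (Fin 2) (AlgebraicClosure E))) h2)
  exact ⟨w, hw, h1⟩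

/-- reducible on `G_K`, `K` quadratic: the trace vanishes outside `G_K` -/
lemma trace_of_redOn {K : Type} [Field K] [NumberField K] (hK : Module.finrank ℚ K = 2)
    (j : K →+* Qb) (r : GQ →* GL (Fin 2) E) (hi : AbsIrr r) (hr : RedOn j r) (g : GQ)
    (hg : g ∉ GK j) : (r g : Matrix (Fin 2) (Fin 2) E).trace = 0 := by
  obtain ⟨w, hw, h1⟩ := hr
  obtain ⟨χ, hχ⟩ := exists_char (F := AlgebraicClosure E) j r w hw h1
  have hind : IsInd j χ (rb r) := ⟨w, hχ, hi w hw⟩
  obtain ⟨c, hc, -, h2⟩ := H20.ind_facts hK hind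
  have h3 := (h2 g hg).1
  rw [rb_trace] at h3
  exact (map_eq_zero _).1 h3

end

/-- open subgroups of index two are the groups `G_K`, `K` quadratic -/
lemma exists_quad (H : Subgroup GQ) (ho : IsOpen (H : Set GQ)) (hi : H.index = 2) :
    ∃ (K : Type) (_ : Field K) (_ : NumberField K) (j : K →+* Qb),
      Module.finrank ℚ K = 2 ∧ GK j = H := by
  have htop : GK (algebraMap ℚ Qb) = ⊤ := by
    rw [eq_top_iff]
    intro g _ x
    exact g.commutes x
  have hn : H.Normal := Subgroup.normal_of_index_eq_two hi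
  obtain ⟨L, iF, iN, iA, iG, jL, ρ, hD, hG, hker⟩ := H916.exists_fld (algebraMap ℚ Qb) H ho
    (by rw [htop]; exact le_top) (fun g _ u hu => hn.conj_mem u hu g)
  obtain rfl : iA = DivisionRing.toRatAlgebra := Subsingleton.elim _ _
  refine ⟨L, iF, iN, jL, ?_, hG⟩
  have h1 : ρ.ker = H.subgroupOf (GK (algebraMap ℚ Qb)) := by
    ext g
    rw [MonoidHom.mem_ker, hker, Subgroup.mem_subgroupOf]
  have h2 : ρ.ker.index = 2 := by
    rw [h1]
    change H.relIndex _ = 2
    rw [htop, Subgroup.relIndex_top_right, hi]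
  rw [Subgroup.index_ker, MonoidHom.range_eq_top.2 hD.surj] at h2
  have h3 : Nat.card (L ≃ₐ[ℚ] L) = 2 := by
    rw [← h2]
    exact (Nat.card_congr Subgroup.topEquiv.toEquiv).symm
  rw [IsGalois.card_aut_eq_finrank] at h3
  exact h3

/-- `G_K` is open of index two, `K` quadratic -/
lemma GK_open {K : Type} [Field K] [NumberField K] (hK : Module.finrank ℚ K = 2)
    (j : K →+* Qb) : IsOpen (GK j : Set GQ) ∧ (GK j).index = 2 := by
  refine ⟨H916.isOpen_GK j, ?_⟩
  obtain ⟨c, hc⟩ := H916.exists_not_mem j hK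
  rw [Subgroup.index_eq_two_iff]
  refine ⟨c, fun b => ?_⟩
  by_cases hb : b ∈ GK j
  · refine Or.inr ⟨hb, fun h => hc ?_⟩
    simpa using (GK j).mul_mem ((GK j).inv_mem hb) h
  · refine Or.inl ⟨?_, hb⟩
    exact H20.mul_mem' hK hb hc

/-- **the three descriptions of dihedral representations** -/
theorem dihedral_iff {E : Type} [Field E] (r : GQ →* GL (Fin 2) E) (hi : AbsIrr r) :
    (Dihedral r ↔ ∃ (K : Type) (_ : Field K) (_ : NumberField K) (j : K →+* Qb),
      Module.finrank ℚ K = 2 ∧ RedOn j r) ∧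
    (Dihedral r ↔ ∃ H : Subgroup GQ, IsOpen (H : Set GQ) ∧ H.index = 2 ∧
      ∀ g ∈ H, ∀ h ∈ H, r g * r h = r h * r g) := by
  have h1 : (∃ H : Subgroup GQ, IsOpen (H : Set GQ) ∧ H.index = 2 ∧
      ∀ g ∈ H, ∀ h ∈ H, r g * r h = r h * r g) →
      ∃ (K : Type) (_ : Field K) (_ : NumberField K) (j : K →+* Qb),
      Module.finrank ℚ K = 2 ∧ RedOn j r := by
    rintro ⟨H, ho, hx, hc⟩
    obtain ⟨K, i1, i2, j, hK, hG⟩ := exists_quad H ho hx
    subst hG
    exact ⟨K, i1, i2, j, hK, redOn_of_comm j r hc⟩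
  have h2 : (∃ (K : Type) (_ : Field K) (_ : NumberField K) (j : K →+* Qb),
      Module.finrank ℚ K = 2 ∧ RedOn j r) → Dihedral r := by
    rintro ⟨K, i1, i2, j, hK, hr⟩
    obtain ⟨h3, h4⟩ := GK_open hK j
    exact ⟨GK j, h3, h4, fun g hg => trace_of_redOn hK j r hi hr g hg⟩
  have h3 : Dihedral r → ∃ H : Subgroup GQ, IsOpen (H : Set GQ) ∧ H.index = 2 ∧
      ∀ g ∈ H, ∀ h ∈ H, r g * r h = r h * r g := by
    rintro ⟨H, ho, hx, ht⟩
    exact ⟨H, ho, hx, fun g hg h hh => comm_of_dihedral r H hx ht g h hg hh⟩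
  exact ⟨⟨fun h => h1 (h3 h), h2⟩, ⟨h3, fun h => h2 (h1 h)⟩⟩

end H220

end Vale.Agent.P022
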