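import Vale.Agent.P022.H220.Dih
import Vale.Agent.P022.H20.Fin

/-! # P022: the final theorem for dihedral representations, from its version over a quadratic
field -/

open NumberField Matrix

noncomputable section

namespace Vale.Agent.P022

/-- the theorem for a given quadratic field (H20.top) -/
def TopStmt : Prop := ∀ (K : Type) [Field K] [NumberField K] (_ : Module.finrank ℚ K = 2)
  (j : K →+* Qb) (E : Type) [NontriviallyNormedField E] [NormedAlgebra ℚ_[2] E]
  [FiniteDimensional ℚ_[2] E] (r : GQ →* GL (Fin 2) E) (_ : Continuous r) (_ : OddRep r)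
  (_ : AbsIrr r) (_ : {p : ℕ | p.Prime ∧ ¬ UnrAt r p}.Finite) (_ : RedOn j r), Q1Concl E r

/-- **Q1 for all dihedral representations**: every continuous, odd, absolutely irreducible
`r : G_ℚ → GL₂(E)`, unramified outside finitely many primes and dihedral (the trace vanishes
outside an open subgroup of index two), occurs at some odd level `N` whose prime divisors are all
primes at which `r` ramifies -/
theorem q1_dihedral (hT : TopStmt) (E : Type) [NontriviallyNormedField E]
    [NormedAlgebra ℚ_[2] E] [FiniteDimensional ℚ_[2] E] (r : GQ →* GL (Fin 2) E)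
    (hc : Continuous r) (ho : OddRep r) (hi : AbsIrr r)
    (hS : {p : ℕ | p.Prime ∧ ¬ UnrAt r p}.Finite) (hd : Dihedral r) : Q1Concl E r := by
  obtain ⟨K, _, _, j, hK, hr⟩ := (H220.dihedral_iff r hi).1.1 hd
  exact hT K hK j E r hc ho hi hS hr

/-- the same with `r` commutative on an open subgroup of index two -/
theorem q1_comm (hT : TopStmt) (E : Type) [NontriviallyNormedField E]
    [NormedAlgebra ℚ_[2] E] [FiniteDimensional ℚ_[2] E] (r : GQ →* GL (Fin 2) E)
    (hc : Continuous r) (ho : OddRep r) (hi : AbsIrr r)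
    (hS : {p : ℕ | p.Prime ∧ ¬ UnrAt r p}.Finite) (H : Subgroup GQ) (hH : IsOpen (H : Set GQ))
    (hx : H.index = 2) (hd : ∀ g ∈ H, ∀ h ∈ H, r g * r h = r h * r g) : Q1Concl E r :=
  q1_dihedral hT E r hc ho hi hS ((H220.dihedral_iff r hi).2.2 ⟨H, hH, hx, hd⟩)

end Vale.Agent.P022
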