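import Vale.Agent.P022.H220.Ser
import Vale.Agent.P022.H472.Lit

/-!
# P022, block [SER]: `T_ℓ` on theta series of ideals
-/

open scoped ModularForm MatrixGroups Manifold NumberField
open UpperHalfPlane Matrix CongruenceSubgroup

noncomputable section

namespace Vale.Agent.P022.H220

/-! ### the quadratic character and the ideals of norm `ℓ` -/

theorem chi_of_jac (hJ : JACStmt) (K : Type) [Field K] [NumberField K]
    [Algebra.IsQuadraticExtension ℚ K] [NumberField.IsTotallyComplex K] (D : ℕ)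
    (hD : NumberField.discr K = -(D : ℤ)) (hDo : Odd D) (ℓ : ℕ) (hℓ : ℓ.Prime)
    (h : ¬ ℓ ∣ 2 * D) : chi (𝓞 K) ℓ = jacobiSym (ℓ : ℤ) D ∧ Unram (𝓞 K) ℓ := by
  classical
  have h2 : Module.finrank ℤ (𝓞 K) = 2 := by
    rw [NumberField.RingOfIntegers.rank]
    exact Algebra.IsQuadraticExtension.finrank_eq_two ℚ K
  rcases hJ K D hD hDo ℓ hℓ h with ⟨h1, p, q, hne, _, _, hp, hq, hpq⟩ | ⟨h1, h3⟩
  · have hmem : ∀ r : Ideal (𝓞 K), Ideal.absNorm r = ℓ → r = p ∨ r = q := by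
      intro r hr
      have h1 : r ∣ p * q := by rw [hpq]; exact dvd_l hr
      rcases (prime_of_norm hℓ hr).dvd_or_dvd h1 with h3 | h3
      · exact Or.inl (eq_of_dvd' hℓ hr hp h3)
      · exact Or.inr (eq_of_dvd' hℓ hr hq h3)
    have hPl : Pl (𝓞 K) ℓ = {p, q} := by
      ext r
      rw [mem_Pl, Finset.mem_insert, Finset.mem_singleton]
      constructor
      · exact hmem r
      · rintro (rfl | rfl)
        · exact hp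
        · exact hq
    have hp0 : p ≠ 0 := by
      rintro rfl
      rw [Ideal.zero_eq_bot, Ideal.absNorm_bot] at hp
      exact hℓ.ne_zero hp.symm
    have hq0 : q ≠ 0 := by
      rintro rfl
      rw [Ideal.zero_eq_bot, Ideal.absNorm_bot] at hq
      exact hℓ.ne_zero hq.symm
    refine ⟨?_, ?_⟩
    · rw [chi, hPl, Finset.card_pair hne, h1]; norm_num
    · intro r hr hrr
      rw [← hpq, sq] at hrr
      rcases hmem r hr with rfl | rfl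
      · exact hne (mul_left_cancel₀ hp0 hrr)
      · exact hne (mul_right_cancel₀ hq0 hrr).symm
  · have hnone : ∀ r : Ideal (𝓞 K), Ideal.absNorm r ≠ ℓ := by
      intro r hr
      obtain ⟨s, hs, hrs⟩ := exists_cofactor h2 hℓ hr
      have hn0 : Ideal.span {(ℓ : 𝓞 K)} ≠ 0 := by
        rw [Ne, Ideal.zero_eq_bot, Ideal.span_singleton_eq_bot]
        exact_mod_cast hℓ.ne_zero
      have hir : Irreducible (Ideal.span {(ℓ : 𝓞 K)}) :=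
        (Ideal.prime_of_isPrime hn0 h3).irreducible
      rw [← hrs] at hir
      rcases hir.isUnit_or_isUnit rfl with h4 | h4
      · rw [Ideal.isUnit_iff] at h4
        rw [h4, Ideal.absNorm_top] at hr
        exact hℓ.one_lt.ne hr
      · rw [Ideal.isUnit_iff] at h4
        rw [h4, Ideal.absNorm_top] at hs
        exact hℓ.one_lt.ne hs
    refine ⟨?_, fun r hr => absurd hr (hnone r)⟩
    have hE : Pl (𝓞 K) ℓ = ∅ := by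
      ext r
      rw [mem_Pl]
      simp [hnone r]
    rw [chi, hE, h1]
    simp

/-! ### slashes -/

theorem tri_coe (a b d : ℚ) (h : a * d ≠ 0) :
    (((tri a b d h).map (algebraMap ℚ ℝ) : GL (Fin 2) ℝ) : Matrix (Fin 2) (Fin 2) ℝ) =
      !![(a : ℝ), b; 0, d] := by
  ext i j
  fin_cases i <;> fin_cases j <;> simp [tri]

theorem slash_tri {f : ℍ → ℂ} {a b d : ℚ} (h : a * d ≠ 0) (ha : 0 < a) (hd : 0 < d) (κ : ℕ)
    (τ : ℍ) :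
    ∃ τ' : ℍ, (τ' : ℂ) = (a * τ + b) / d ∧
      (f ∣[((κ + 1 : ℕ) : ℤ)] ((tri a b d h).map (algebraMap ℚ ℝ))) τ =
        (a ^ κ / d : ℂ) * f τ' := by
  set g : GL (Fin 2) ℝ := (tri a b d h).map (algebraMap ℚ ℝ) with hg
  have hM : (g : Matrix (Fin 2) (Fin 2) ℝ) = !![(a : ℝ), b; 0, d] := tri_coe a b d h
  have hdet : g.det.val = a * d := by
    rw [GeneralLinearGroup.val_det_apply, hM, Matrix.det_fin_two_of]; ring
  have hpos : 0 < g.det.val := by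
    rw [hdet]; exact_mod_cast mul_pos ha hd
  refine ⟨g • τ, ?_, ?_⟩
  · rw [UpperHalfPlane.coe_smul_of_det_pos hpos]
    simp [UpperHalfPlane.num, UpperHalfPlane.denom, hM]
  · rw [ModularForm.slash_apply]
    have hσ : σ g (f (g • τ)) = f (g • τ) := by
      rw [σ, if_pos hpos]
      rfl
    rw [hσ, hdet]
    have hde : UpperHalfPlane.denom g τ = d := by
      simp [UpperHalfPlane.denom, hM]
    rw [hde]
    have : |(a : ℝ) * d| = a * d := abs_of_pos (by exact_mod_cast mul_pos ha hd)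
    rw [this]
    have hd0 : (d : ℂ) ≠ 0 := by exact_mod_cast hd.ne'
    have e1 : (((κ + 1 : ℕ) : ℤ) - 1) = (κ : ℤ) := by push_cast; ring
    rw [e1, _root_.zpow_neg, zpow_natCast, zpow_natCast]
    push_cast
    rw [mul_pow, pow_succ]
    field_simp

/-- orthogonality -/
theorem sum_root {p : ℕ} (hp : p.Prime) (m : ℕ) :
    ∑ j : Fin p, Complex.exp (2 * Real.pi * Complex.I * (m * (j : ℕ) / p)) =
      if p ∣ m then (p : ℂ) else 0 := by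
  have hp0 : (p : ℂ) ≠ 0 := by exact_mod_cast hp.ne_zero
  set ζ : ℂ := Complex.exp (2 * Real.pi * Complex.I / p) with hζ
  have hprim : IsPrimitiveRoot ζ p := Complex.isPrimitiveRoot_exp p hp.ne_zero
  have e1 : ∀ j : Fin p, Complex.exp (2 * Real.pi * Complex.I * (m * (j : ℕ) / p)) =
      (ζ ^ m) ^ (j : ℕ) := by
    intro j
    rw [hζ, ← Complex.exp_nat_mul, ← Complex.exp_nat_mul]
    congr 1
    ring
  simp_rw [e1]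
  rw [Fin.sum_univ_eq_sum_range (fun j => (ζ ^ m) ^ j) p]
  split_ifs with h
  · have : ζ ^ m = 1 := (hprim.pow_eq_one_iff_dvd m).2 h
    simp [this]
  · have h1 : ζ ^ m ≠ 1 := fun h2 => h ((hprim.pow_eq_one_iff_dvd m).1 h2)
    rw [geom_sum_eq h1, ← pow_mul, mul_comm m p, pow_mul, hprim.pow_eq_one, one_pow, sub_self,
      zero_div]

/-! ### the identity -/

theorem hs_congr {ι : Type*} {f g : ι → ℂ} {x : ℂ} (h : HasSum g x) (e : ∀ m, f m = g m) :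
    HasSum f x := by
  rw [funext e]
  exact h

variable {K : Type} [Field K] [NumberField K]

open Classical in
/-- the pointwise identity -/
theorem pointwise (h2 : Module.finrank ℤ (𝓞 K) = 2) {ℓ : ℕ} (hℓ : ℓ.Prime) (hu : Unram (𝓞 K) ℓ)
    {J : ℤ} (hchi : chi (𝓞 K) ℓ = J) {𝔟 : Ideal (𝓞 K)} (h𝔟 : 𝔟 ≠ ⊥) (q : Ideal (𝓞 K))
    (α : 𝓞 K) (ha : α ∈ 𝔟 → Ideal.span {α} = 𝔟 * q) (z : ℂ) :
    (if α ∈ 𝔟 then (if ℓ ∣ Ideal.absNorm q then z else 0) else 0) +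
      (if α ∈ 𝔟 * Ideal.span {(ℓ : 𝓞 K)} then (J : ℂ) * z else 0) =
      ∑ 𝔭 ∈ Pl (𝓞 K) ℓ, if α ∈ 𝔟 * 𝔭 then z else 0 := by
  by_cases hα : α ∈ 𝔟
  · have ha := ha hα
    have e1 : (∑ 𝔭 ∈ Pl (𝓞 K) ℓ, if α ∈ 𝔟 * 𝔭 then z else 0)
        = (((Pl (𝓞 K) ℓ).filter (· ∣ q)).card : ℂ) * z := by
      rw [Finset.sum_congr rfl fun p _ => by rw [if_congr (mem_mul_iff_dvd h𝔟 ha) rfl rfl],
        ← Finset.sum_filter, Finset.sum_const, nsmul_eq_mul]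
    rw [e1, if_pos hα, if_congr (mem_mul_iff_dvd h𝔟 ha) rfl rfl]
    by_cases hd : ℓ ∣ Ideal.absNorm q
    · have hc := card_dvd h2 hℓ hu hd
      rw [hchi] at hc
      have hc' := congrArg (fun z : ℤ => (z : ℂ)) hc
      simp only [Int.cast_natCast, Int.cast_add, Int.cast_one, Int.cast_mul] at hc'
      rw [hc', if_pos hd]
      by_cases h3 : Ideal.span {(ℓ : 𝓞 K)} ∣ q
      · rw [if_pos h3, if_pos h3]
        push_cast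
        ring
      · rw [if_neg h3, if_neg h3]
        push_cast
        ring
    · have hE : (Pl (𝓞 K) ℓ).filter (· ∣ q) = ∅ := by
        rw [Finset.filter_eq_empty_iff]
        intro p hp h
        rw [mem_Pl] at hp
        exact hd (hp ▸ map_dvd Ideal.absNorm h)
      have hE' : ¬ Ideal.span {(ℓ : 𝓞 K)} ∣ q := by
        intro h
        apply hd
        have := map_dvd Ideal.absNorm h
        rw [norm_l (R := 𝓞 K) h2] at this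
        exact (dvd_pow_self ℓ two_ne_zero).trans this
      rw [if_neg hd, if_neg hE', hE]
      simp
  · have h' : ∀ p : Ideal (𝓞 K), α ∉ 𝔟 * p := fun p hp =>
      hα ((Ideal.dvd_iff_le.mp (dvd_mul_right 𝔟 p)) hp)
    rw [if_neg hα, if_neg (h' _), zero_add]
    exact (Finset.sum_eq_zero fun p _ => if_neg (h' p)).symm

/-- the common term -/
def hh (s : K →+* ℂ) (𝔟 : Ideal (𝓞 K)) (f : 𝓞 K → ℂ) (κ ℓ : ℕ) (τ : ℂ) (α : 𝓞 K) : ℂ :=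
  f α * s α ^ κ * Complex.exp (2 * Real.pi * Complex.I *
    ((Ideal.absNorm (Ideal.span {α}) : ℂ) / (ℓ * Ideal.absNorm 𝔟)) * τ)

theorem idT_up (s : K →+* ℂ) (𝔟 : Ideal (𝓞 K)) (h𝔟 : 𝔟 ≠ ⊥) (f : 𝓞 K → ℂ) (κ ℓ : ℕ)
    (hℓ : ℓ ≠ 0) (τ τ' : ℂ) (j : ℕ) (h : τ' = (τ + j) / ℓ) (α : 𝔟) (n : ℕ)
    (hn : Ideal.absNorm (Ideal.span {(α : 𝓞 K)}) = n * Ideal.absNorm 𝔟) :
    idT s 𝔟 f κ τ' α = hh s 𝔟 f κ ℓ τ α *
      Complex.exp (2 * Real.pi * Complex.I * (n * (j : ℕ) / ℓ)) := by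
  have hb : (Ideal.absNorm 𝔟 : ℂ) ≠ 0 := by
    rw [Nat.cast_ne_zero, Ne, Ideal.absNorm_eq_zero_iff]; exact h𝔟
  have hℓ' : (ℓ : ℂ) ≠ 0 := by exact_mod_cast hℓ
  rw [idT, hh, mul_assoc (f α * _), ← Complex.exp_add, hn, h]
  congr 2
  push_cast
  field_simp

theorem idT_dn (s : K →+* ℂ) (𝔟 : Ideal (𝓞 K)) (h𝔟 : 𝔟 ≠ ⊥)
    (h2 : Module.finrank ℤ (𝓞 K) = 2) (f : 𝓞 K → ℂ) (κ ℓ : ℕ)
    (hℓ : ℓ ≠ 0) (τ τ' : ℂ) (h : τ' = ℓ * τ) (α : 𝔟) :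
    (ℓ : ℂ) ^ κ * idT s 𝔟 (fun α => f (ℓ * α)) κ τ' α = hh s 𝔟 f κ ℓ τ (ℓ * (α : 𝓞 K)) := by
  have hb : (Ideal.absNorm 𝔟 : ℂ) ≠ 0 := by
    rw [Nat.cast_ne_zero, Ne, Ideal.absNorm_eq_zero_iff]; exact h𝔟
  have hℓ' : (ℓ : ℂ) ≠ 0 := by exact_mod_cast hℓ
  have e0 : s (((ℓ : 𝓞 K) * (α : 𝓞 K) : 𝓞 K) : K) = ℓ * s ((α : 𝓞 K) : K) := by simp
  rw [idT, hh, norm_l_mul h2, h, e0, mul_pow]
  have e : 2 * (Real.pi : ℂ) * Complex.I * ((Ideal.absNorm (Ideal.span {(α : 𝓞 K)}) : ℂ) /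
      Ideal.absNorm 𝔟) * (ℓ * τ) = 2 * (Real.pi : ℂ) * Complex.I *
      (((ℓ ^ 2 * Ideal.absNorm (Ideal.span {(α : 𝓞 K)}) : ℕ) : ℂ) / (ℓ * Ideal.absNorm 𝔟)) * τ := by
    push_cast
    field_simp
  rw [e]
  ring

theorem idT_mul (s : K →+* ℂ) (𝔟 𝔭 : Ideal (𝓞 K)) (f : 𝓞 K → ℂ) (κ ℓ : ℕ)
    (h𝔭 : Ideal.absNorm 𝔭 = ℓ) (τ : ℂ) (α : (𝔟 * 𝔭 : Ideal (𝓞 K))) :
    idT s (𝔟 * 𝔭) f κ τ α = hh s 𝔟 f κ ℓ τ α := by
  rw [idT, hh, map_mul, h𝔭]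
  push_cast
  rw [mul_comm (Ideal.absNorm 𝔟 : ℂ)]

theorem hs_sub {X : Type*} (A B : Set X) (hAB : A ⊆ B) (H : X → ℂ)
    (hs : Summable (fun x : B => H x)) [DecidablePred (· ∈ A)] :
    HasSum (fun x => if x ∈ A then H x else 0) (∑' x : A, H x) := by
  have h1 : Summable (fun x : A => H x) := hs.comp_injective (Set.inclusion_injective hAB)
  refine (Subtype.val_injective.hasSum_iff ?_).1 (hs_congr h1.hasSum fun x => ?_)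
  · intro x hx
    rw [if_neg]
    intro h
    exact hx ⟨⟨x, h⟩, rfl⟩
  · simp only [Function.comp_apply]
    rw [if_pos x.2]

theorem hs_ind {X : Type*} (A : Set X) (H : X → ℂ) (z : ℂ)
    (hs : HasSum (fun x : A => H x) z) [DecidablePred (· ∈ A)] :
    HasSum (fun x => if x ∈ A then H x else 0) z := by
  refine (Subtype.val_injective.hasSum_iff ?_).1 (hs_congr hs fun x => ?_)
  · intro x hx
    rw [if_neg]
    intro h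
    exact hx ⟨⟨x, h⟩, rfl⟩
  · simp only [Function.comp_apply]
    rw [if_pos x.2]

/-- the operators `[1, j; 0, ℓ]` -/
theorem part_up (s : K →+* ℂ) (𝔟 : Ideal (𝓞 K)) (h𝔟 : 𝔟 ≠ ⊥) (f : 𝓞 K → ℂ) (κ ℓ : ℕ)
    (hℓ : ℓ.Prime) (G : ℍ → ℂ) (hG : ∀ τ : ℍ, HasSum (idT s 𝔟 f κ τ) (G τ)) (τ : ℍ)
    (q : 𝓞 K → ℕ)
    (hq : ∀ α ∈ 𝔟, Ideal.absNorm (Ideal.span {α}) = q α * Ideal.absNorm 𝔟) :
    HasSum (fun α : 𝔟 => if ℓ ∣ q α then hh s 𝔟 f κ ℓ τ α else 0)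
      (∑ j : Fin ℓ, (G ∣[((κ + 1 : ℕ) : ℤ)] (up ℓ hℓ.ne_zero j)) τ) := by
  have hℓ' : (ℓ : ℂ) ≠ 0 := by exact_mod_cast hℓ.ne_zero
  have h3 : ∀ j : Fin ℓ, HasSum (fun α : 𝔟 => hh s 𝔟 f κ ℓ τ α *
      (Complex.exp (2 * Real.pi * Complex.I * (q α * (j : ℕ) / ℓ)) / ℓ))
      ((G ∣[((κ + 1 : ℕ) : ℤ)] (up ℓ hℓ.ne_zero j)) τ) := by
    intro j
    obtain ⟨τ', e1, e2⟩ := slash_tri (f := G) (a := 1) (b := ((j : ℕ) : ℚ)) (d := (ℓ : ℚ))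
      (by simpa using hℓ.ne_zero) one_pos (by exact_mod_cast hℓ.pos) κ τ
    rw [up, e2]
    have h4 := (hG τ').mul_left (((1 : ℚ) : ℂ) ^ κ / ((ℓ : ℚ) : ℂ))
    refine hs_congr h4 fun α => ?_
    rw [idT_up s 𝔟 h𝔟 f κ ℓ hℓ.ne_zero τ τ' j (by rw [e1]; push_cast; ring) α _ (hq α α.2)]
    push_cast
    rw [one_pow]
    ring
  have h5 := hasSum_sum (fun j (_ : j ∈ (Finset.univ : Finset (Fin ℓ))) => h3 j)
  refine hs_congr h5 fun α => ?_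
  rw [← Finset.mul_sum, ← Finset.sum_div, sum_root hℓ]
  split_ifs with h
  · field_simp
  · simp

/-- summability of the common term -/
theorem part_sum (s : K →+* ℂ) (𝔟 : Ideal (𝓞 K)) (h𝔟 : 𝔟 ≠ ⊥) (f : 𝓞 K → ℂ) (κ ℓ : ℕ)
    (hℓ : ℓ.Prime) (G : ℍ → ℂ) (hG : ∀ τ : ℍ, HasSum (idT s 𝔟 f κ τ) (G τ)) (τ : ℍ)
    (q : 𝓞 K → ℕ)
    (hq : ∀ α ∈ 𝔟, Ideal.absNorm (Ideal.span {α}) = q α * Ideal.absNorm 𝔟) :
    Summable (fun α : 𝔟 => hh s 𝔟 f κ ℓ τ α) := by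
  obtain ⟨τ', e1, -⟩ := slash_tri (f := G) (a := 1) (b := ((0 : ℕ) : ℚ)) (d := (ℓ : ℚ))
    (by simpa using hℓ.ne_zero) one_pos (by exact_mod_cast hℓ.pos) κ τ
  refine (hG τ').summable.congr fun α => ?_
  rw [idT_up s 𝔟 h𝔟 f κ ℓ hℓ.ne_zero τ τ' 0 (by rw [e1]; push_cast; ring) α _ (hq α α.2)]
  simp

/-- the operator `⟨ℓ⟩` followed by `[ℓ, 0; 0, 1]` -/
theorem part_dn (s : K →+* ℂ) (𝔟 : Ideal (𝓞 K)) (h𝔟 : 𝔟 ≠ ⊥)
    (h2 : Module.finrank ℤ (𝓞 K) = 2) (f : 𝓞 K → ℂ) (κ ℓ : ℕ)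
    (hℓ : ℓ.Prime) (F : ℍ → ℂ) (J : ℂ)
    (hF : ∀ τ : ℍ, HasSum (fun α : 𝔟 => J * idT s 𝔟 (fun α => f (ℓ * α)) κ τ α) (F τ)) (τ : ℍ) :
    HasSum (fun α : 𝔟 => J * hh s 𝔟 f κ ℓ τ (ℓ * (α : 𝓞 K)))
      ((F ∣[((κ + 1 : ℕ) : ℤ)] (dn ℓ hℓ.ne_zero)) τ) := by
  obtain ⟨τ', e1, e2⟩ := slash_tri (f := F)
    (a := (ℓ : ℚ)) (b := 0) (d := 1)
    (by simpa using hℓ.ne_zero) (by exact_mod_cast hℓ.pos) one_pos κ τ
  rw [dn, e2]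
  have h4 := (hF τ').mul_left (((ℓ : ℚ) : ℂ) ^ κ / ((1 : ℚ) : ℂ))
  refine hs_congr h4 fun α => ?_
  rw [← idT_dn s 𝔟 h𝔟 h2 f κ ℓ hℓ.ne_zero τ τ' (by rw [e1]; push_cast; ring) α]
  push_cast
  ring

open Classical in
theorem part_dn' (𝔟 : Ideal (𝓞 K)) (ℓ : ℕ) (hℓ : ℓ ≠ 0) (H : 𝓞 K → ℂ) (J z : ℂ)
    (h : HasSum (fun α : 𝔟 => J * H (ℓ * (α : 𝓞 K))) z) :
    HasSum (fun α : 𝓞 K => if α ∈ 𝔟 * Ideal.span {(ℓ : 𝓞 K)} then J * H α else 0) z := by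
  have hℓR : (ℓ : 𝓞 K) ≠ 0 := by exact_mod_cast hℓ
  have inj : Function.Injective (fun α : 𝔟 => (ℓ : 𝓞 K) * (α : 𝓞 K)) := fun a b h =>
    Subtype.ext (mul_left_cancel₀ hℓR h)
  refine (inj.hasSum_iff ?_).1 ?_
  · intro x hx
    rw [if_neg]
    intro h
    rw [mul_comm, Ideal.mem_span_singleton_mul] at h
    obtain ⟨β, hβ, rfl⟩ := h
    exact hx ⟨⟨β, hβ⟩, rfl⟩
  · refine hs_congr h fun α => ?_
    simp only [Function.comp_apply]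
    rw [if_pos]
    rw [mul_comm 𝔟]
    exact Ideal.mul_mem_mul (Ideal.mem_span_singleton_self _) α.2

open Classical in
theorem part_p (s : K →+* ℂ) (𝔟 : Ideal (𝓞 K)) (f : 𝓞 K → ℂ) (κ ℓ : ℕ) (τ : ℂ)
    (hs : Summable (fun α : 𝔟 => hh s 𝔟 f κ ℓ τ α)) (𝔭 : Ideal (𝓞 K))
    (h𝔭 : Ideal.absNorm 𝔭 = ℓ) :
    HasSum (fun α : 𝓞 K => if α ∈ 𝔟 * 𝔭 then hh s 𝔟 f κ ℓ τ α else 0)
      (thI s (𝔟 * 𝔭) f κ τ) := by
  have hle : 𝔟 * 𝔭 ≤ 𝔟 := Ideal.dvd_iff_le.mp (dvd_mul_right 𝔟 𝔭)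
  have h8 : thI s (𝔟 * 𝔭) f κ τ = ∑' α : (𝔟 * 𝔭 : Ideal (𝓞 K)), hh s 𝔟 f κ ℓ τ α := by
    rw [thI]
    exact tsum_congr fun α => idT_mul s 𝔟 𝔭 f κ ℓ h𝔭 τ α
  rw [h8]
  exact hs_sub ((𝔟 * 𝔭 : Ideal (𝓞 K)) : Set (𝓞 K)) (𝔟 : Set (𝓞 K)) hle _ hs

/-- **[SER]** -/
theorem ser (hJ : JACStmt) : SERStmt := by
  classical
  intro K _ _ _ _ D hD hDo s m hm 𝔟 h𝔟 f κ ℓ G hG hdG τ
  have h2 : Module.finrank ℤ (𝓞 K) = 2 := by
    rw [NumberField.RingOfIntegers.rank]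
    exact Algebra.IsQuadraticExtension.finrank_eq_two ℚ K
  obtain ⟨ℓ, hℓ, hℓN⟩ := ℓ
  have hℓD : ¬ ℓ ∣ 2 * D := fun h => hℓN (h.trans ⟨m ^ 2, by ring⟩)
  obtain ⟨hchi, hu⟩ := chi_of_jac hJ K D hD hDo ℓ hℓ hℓD
  -- the quotient ideal
  have hquo : ∀ α ∈ 𝔟, ∃ a : Ideal (𝓞 K), Ideal.span {α} = 𝔟 * a := fun α hα =>
    Ideal.dvd_span_singleton.mpr hα
  choose! qa hqa using hquo
  have hnn : ∀ α ∈ 𝔟, Ideal.absNorm (Ideal.span {α}) = Ideal.absNorm (qa α) * Ideal.absNorm 𝔟 := by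
    intro α hα
    rw [hqa α hα, map_mul, mul_comm]
  have h1 := part_up s 𝔟 h𝔟 f κ ℓ hℓ G hG τ (fun α => Ideal.absNorm (qa α)) hnn
  have hsum := part_sum s 𝔟 h𝔟 f κ ℓ hℓ G hG τ (fun α => Ideal.absNorm (qa α)) hnn
  have h6 := part_dn s 𝔟 h𝔟 h2 f κ ℓ hℓ _ _ hdG τ
  have k1 := hs_ind (𝔟 : Set (𝓞 K))
    (fun α => if ℓ ∣ Ideal.absNorm (qa α) then hh s 𝔟 f κ ℓ τ α else 0) _ h1
  have k2 := part_dn' 𝔟 ℓ hℓ.ne_zero (hh s 𝔟 f κ ℓ τ) _ _ h6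
  have k3 : ∀ 𝔭 ∈ Pl (𝓞 K) ℓ, HasSum (fun α : 𝓞 K => if α ∈ 𝔟 * 𝔭 then hh s 𝔟 f κ ℓ τ α else 0)
      (thI s (𝔟 * 𝔭) f κ τ) := fun 𝔭 h𝔭 =>
    part_p s 𝔟 f κ ℓ τ hsum 𝔭 (mem_Pl.mp h𝔭)
  have k4 := hasSum_sum k3
  have k5 := hs_congr (k1.add k2) fun α =>
    (pointwise h2 hℓ hu hchi h𝔟 (qa α) α (hqa α) (hh s 𝔟 f κ ℓ τ α)).symm
  have hfin := k5.unique k4
  have hset : {𝔭 : Ideal (𝓞 K) | Ideal.absNorm 𝔭 = ℓ} = ((Pl (𝓞 K) ℓ : Finset _) : Set _) := by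
    ext p
    simp
  rw [hset, finsum_mem_coe_finset, ← hfin]
  simp only [tFun, Pi.add_apply, Finset.sum_apply]

end Vale.Agent.P022.H220
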