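import Vale.Agent.P022.H220.Exp
import Vale.Agent.P022.H220.SerT

/-!
# P022-X, block [EXP], part 2: slashes and Hecke operators on expansions
-/

open Complex UpperHalfPlane
open scoped Real MatrixGroups ModularForm

noncomputable section

namespace Vale.Agent.P022.H220

namespace Ex

variable {A B C : AddSubgroup ℂ} {R S : ℕ} {F G : ℍ → ℂ}

/-- expansions of a slash by `[a, b; 0, d]`, weight `κ + 1` -/
theorem slash_tri (hR : 0 < R) (hA : RootStable A) {a d : ℕ} (ha : 0 < a) (hd : 0 < d) (b : ℤ)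
    (h : (a : ℚ) * (d : ℚ) ≠ 0) (κ : ℕ) (hB : ∀ x ∈ A, (a ^ κ / d : ℂ) * x ∈ B)
    (hF : Ex A R F) :
    Ex B (R * d) (F ∣[((κ + 1 : ℕ) : ℤ)] ((Vale.Agent.P022.tri a b d h).map (algebraMap ℚ ℝ))) := by
  have key : ∀ τ : ℍ, ∃ τ' : ℍ, (τ' : ℂ) = (a * τ + b) / d ∧
      (F ∣[((κ + 1 : ℕ) : ℤ)] ((Vale.Agent.P022.tri a b d h).map (algebraMap ℚ ℝ))) τ
        = (a ^ κ / d : ℂ) * F τ' := by
    intro τ
    obtain ⟨τ', h1, h2⟩ := H220.slash_tri (f := F) (a := a) (b := b) (d := d) h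
      (by exact_mod_cast ha) (by exact_mod_cast hd) κ τ
    refine ⟨τ', ?_, ?_⟩
    · rw [h1]; push_cast; ring
    · rw [h2]; push_cast; ring
  choose τ' h1 h2 using key
  have h3 : Ex A (R * d) (fun τ => F (τ' τ)) :=
    tri hR hA ha hd b (fun τ => ⟨τ' τ, h1 τ, rfl⟩) hF
  exact congr h2 (smul hB h3)

/-- `U_ℓ` on expansions with `R = 1` -/
theorem hasSum_U {ℓ : ℕ} (hℓ : ℓ.Prime) {a : ℕ → ℂ} (κ : ℕ)
    (hF : ∀ τ : ℍ, HasSum (fun n : ℕ => a n * cexp (2 * π * Complex.I * n * (τ : ℂ) / (1 : ℕ)))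
      (F τ)) (τ : ℍ) :
    HasSum (fun n : ℕ => a (ℓ * n) * cexp (2 * π * Complex.I * n * (τ : ℂ) / (1 : ℕ)))
      (∑ j : Fin ℓ, (F ∣[((κ + 1 : ℕ) : ℤ)] (Vale.Agent.P022.up ℓ hℓ.ne_zero j)) τ) := by
  have hp0 : (ℓ : ℂ) ≠ 0 := by exact_mod_cast hℓ.ne_zero
  have h1 : ∀ j : Fin ℓ, HasSum (fun m : ℕ => a m * (Complex.exp (2 * π * Complex.I *
      (m * τ / ℓ)) * (Complex.exp (2 * π * Complex.I * (m * (j : ℕ) / ℓ)) / ℓ)))
      ((F ∣[((κ + 1 : ℕ) : ℤ)] (Vale.Agent.P022.up ℓ hℓ.ne_zero j)) τ) := by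
    intro j
    obtain ⟨τ', e1, e2⟩ := H220.slash_tri (f := F) (a := 1) (b := ((j : ℕ) : ℚ)) (d := (ℓ : ℚ))
      (by simpa using hℓ.ne_zero) one_pos (by exact_mod_cast hℓ.pos) κ τ
    rw [Vale.Agent.P022.up, e2]
    have h := (hF τ').mul_left (((1 : ℚ) : ℂ) ^ κ / ((ℓ : ℚ) : ℂ))
    refine hs_congr' h fun m => ?_
    rw [e1]
    have e3 : 2 * π * Complex.I * (m : ℂ) * ((((1 : ℚ) : ℂ) * τ + (((j : ℕ) : ℚ) : ℂ)) /
        ((ℓ : ℚ) : ℂ)) / ((1 : ℕ) : ℂ) = 2 * π * Complex.I * (m * τ / ℓ) +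
          2 * π * Complex.I * (m * (j : ℕ) / ℓ) := by
      push_cast
      field_simp
    rw [e3, Complex.exp_add]
    push_cast
    rw [one_pow]
    ring
  have h2 := hasSum_sum (fun j (_ : j ∈ (Finset.univ : Finset (Fin ℓ))) => h1 j)
  have h3 : HasSum (fun m : ℕ => if ℓ ∣ m then a m * Complex.exp (2 * π * Complex.I *
      (m * τ / ℓ)) else 0)
      (∑ j : Fin ℓ, (F ∣[((κ + 1 : ℕ) : ℤ)] (Vale.Agent.P022.up ℓ hℓ.ne_zero j)) τ) := by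
    refine hs_congr' h2 fun m => ?_
    rw [← Finset.mul_sum, ← Finset.mul_sum, ← Finset.sum_div, sum_root hℓ m]
    split_ifs with h
    · field_simp
    · simp
  have inj : Function.Injective (fun m : ℕ => ℓ * m) := fun a b h =>
    Nat.eq_of_mul_eq_mul_left hℓ.pos h
  have h4 := (inj.hasSum_iff (f := fun m : ℕ => if ℓ ∣ m then a m * Complex.exp (2 * π *
    Complex.I * (m * τ / ℓ)) else 0) (by
      intro x hx
      rw [if_neg]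
      rintro ⟨y, rfl⟩
      exact hx ⟨y, rfl⟩)).2 h3
  refine hs_congr' h4 fun m => ?_
  simp only [Function.comp_apply, dvd_mul_right, if_true]
  congr 2
  push_cast
  field_simp

/-- `V_ℓ` on expansions with `R = 1` -/
theorem hasSum_V {ℓ : ℕ} (hℓ : ℓ.Prime) {a : ℕ → ℂ} (κ : ℕ)
    (hF : ∀ τ : ℍ, HasSum (fun n : ℕ => a n * cexp (2 * π * Complex.I * n * (τ : ℂ) / (1 : ℕ)))
      (F τ)) (τ : ℍ) :
    HasSum (fun n : ℕ => (if ℓ ∣ n then (ℓ : ℂ) ^ κ * a (n / ℓ) else 0) *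
        cexp (2 * π * Complex.I * n * (τ : ℂ) / (1 : ℕ)))
      ((F ∣[((κ + 1 : ℕ) : ℤ)] (dn ℓ hℓ.ne_zero)) τ) := by
  have hp0 : (ℓ : ℂ) ≠ 0 := by exact_mod_cast hℓ.ne_zero
  obtain ⟨τ', e1, e2⟩ := H220.slash_tri (f := F) (a := (ℓ : ℚ)) (b := 0) (d := 1)
      (by simpa using hℓ.ne_zero) (by exact_mod_cast hℓ.pos) one_pos κ τ
  rw [dn, e2]
  have inj : Function.Injective (fun m : ℕ => ℓ * m) := fun a b h =>
    Nat.eq_of_mul_eq_mul_left hℓ.pos h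
  refine (inj.hasSum_iff ?_).1 ?_
  · intro x hx
    rw [if_neg, zero_mul]
    rintro ⟨y, rfl⟩
    exact hx ⟨y, rfl⟩
  · have h := (hF τ').mul_left (((ℓ : ℚ) : ℂ) ^ κ / ((1 : ℚ) : ℂ))
    refine hs_congr' h fun m => ?_
    simp only [Function.comp_apply, dvd_mul_right, if_true]
    rw [Nat.mul_div_cancel_left _ hℓ.pos, e1]
    have e3 : 2 * π * Complex.I * ((ℓ * m : ℕ) : ℂ) * (τ : ℂ) / ((1 : ℕ) : ℂ) =
        2 * π * Complex.I * (m : ℂ) * ((((ℓ : ℚ) : ℂ) * τ + ((0 : ℚ) : ℂ)) /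
        ((1 : ℚ) : ℂ)) / ((1 : ℕ) : ℂ) := by
      push_cast
      ring
    rw [e3]
    push_cast
    ring

/-- `T_ℓ` on expansions: `a_n (T_ℓ F) = a_{ℓ n} (F) + ℓ ^ κ a_{n / ℓ} (⟨ℓ⟩ F)` -/
theorem hasSum_tFun {N : ℕ} (ℓ : PA N) {a b : ℕ → ℂ} (κ : ℕ)
    (hF : ∀ τ : ℍ, HasSum (fun n : ℕ => a n * cexp (2 * π * Complex.I * n * (τ : ℂ) / (1 : ℕ)))
      (F τ))
    (hD : ∀ τ : ℍ, HasSum (fun n : ℕ => b n * cexp (2 * π * Complex.I * n * (τ : ℂ) / (1 : ℕ)))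
      (dFun N (κ + 1) ℓ F τ)) (τ : ℍ) :
    HasSum (fun n : ℕ => (a (ℓ.1 * n) + if ℓ.1 ∣ n then (ℓ.1 : ℂ) ^ κ * b (n / ℓ.1) else 0) *
        cexp (2 * π * Complex.I * n * (τ : ℂ) / (1 : ℕ)))
      (tFun N (κ + 1) ℓ F τ) := by
  have h := (hasSum_U ℓ.2.1 κ hF τ).add (hasSum_V ℓ.2.1 κ hD τ)
  have e : tFun N (κ + 1) ℓ F τ = ∑ j : Fin ℓ.1, (F ∣[((κ + 1 : ℕ) : ℤ)]
      (Vale.Agent.P022.up ℓ.1 ℓ.2.1.ne_zero j)) τ +
      (dFun N (κ + 1) ℓ F ∣[((κ + 1 : ℕ) : ℤ)] (dn ℓ.1 ℓ.2.1.ne_zero)) τ := by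
    simp only [tFun, Pi.add_apply, Finset.sum_apply]
  rw [e]
  exact hs_congr' h fun m => by ring

/-- `T_ℓ` preserves expansions with `R = 1` -/
theorem tFun {N : ℕ} (ℓ : PA N) (κ : ℕ) (hF : Ex A 1 F) (hD : Ex A 1 (dFun N (κ + 1) ℓ F)) :
    Ex A 1 (tFun N (κ + 1) ℓ F) := by
  obtain ⟨a, ha, hs⟩ := hF
  obtain ⟨b, hb, ht⟩ := hD
  refine ⟨_, fun n => ?_, hasSum_tFun ℓ κ hs ht⟩
  refine A.add_mem (ha _) ?_
  split_ifs
  · have := A.nsmul_mem (hb (n / ℓ.1)) (ℓ.1 ^ κ)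
    rw [nsmul_eq_mul] at this
    push_cast at this
    exact this
  · exact A.zero_mem

/-- a function with an expansion in `e(τ)` has period one -/
theorem period (hF : Ex A 1 F) (τ τ' : ℍ) (h : (τ' : ℂ) = τ + 1) : F τ' = F τ := by
  obtain ⟨a, ha, hs⟩ := hF
  refine (hs τ').unique (hs_congr' (hs τ) fun n => ?_)
  rw [h]
  have : 2 * π * Complex.I * (n : ℂ) * ((τ : ℂ) + 1) / ((1 : ℕ) : ℂ) =
      2 * π * Complex.I * (n : ℂ) * (τ : ℂ) / ((1 : ℕ) : ℂ) + n * (2 * π * Complex.I) := by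
    push_cast
    ring
  rw [this, Complex.exp_add, Complex.exp_nat_mul_two_pi_mul_I, mul_one]

end Ex

/-- `c A` -/
def mulA (c : ℂ) (A : AddSubgroup ℂ) : AddSubgroup ℂ := A.map (AddMonoidHom.mulLeft c)

theorem mem_mulA {c x : ℂ} {A : AddSubgroup ℂ} : x ∈ mulA c A ↔ ∃ y ∈ A, c * y = x := by
  rw [mulA, AddSubgroup.mem_map]
  rfl

theorem mulA_mul {O : Subring ℂ} {c x y : ℂ} (hx : x ∈ mulA c O.toAddSubgroup) (hy : y ∈ O) :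
    x * y ∈ mulA c O.toAddSubgroup := by
  rw [mem_mulA] at hx ⊢
  obtain ⟨z, hz, rfl⟩ := hx
  exact ⟨z * y, O.mul_mem hz hy, by ring⟩

theorem mulA_mulA {O : Subring ℂ} {c d x y : ℂ} (hx : x ∈ mulA c O.toAddSubgroup)
    (hy : y ∈ mulA d O.toAddSubgroup) : x * y ∈ mulA (c * d) O.toAddSubgroup := by
  rw [mem_mulA] at hx hy ⊢
  obtain ⟨z, hz, rfl⟩ := hx
  obtain ⟨w, hw, rfl⟩ := hy
  exact ⟨z * w, O.mul_mem hz hw, by ring⟩

theorem mulA_le {O : Subring ℂ} {c d : ℂ} (h : ∃ e ∈ O, c = d * e) :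
    mulA c O.toAddSubgroup ≤ mulA d O.toAddSubgroup := by
  obtain ⟨e, he, rfl⟩ := h
  intro x hx
  rw [mem_mulA] at hx ⊢
  obtain ⟨z, hz, rfl⟩ := hx
  exact ⟨e * z, O.mul_mem he hz, by ring⟩

theorem mulA_le_self {O : Subring ℂ} {c : ℂ} (h : c ∈ O) :
    mulA c O.toAddSubgroup ≤ O.toAddSubgroup := by
  intro x hx
  rw [mem_mulA] at hx
  obtain ⟨z, hz, rfl⟩ := hx
  exact O.mul_mem h hz

/-- `c O` is stable under roots of unity as soon as `O` contains them -/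
theorem mulA_rootStable {O : Subring ℂ} (hO : ∀ z : ℂ, ∀ n : ℕ, 0 < n → z ^ n = 1 → z ∈ O)
    (c : ℂ) : Ex.RootStable (mulA c O.toAddSubgroup) := by
  intro a ha z n hn hz
  rw [mul_comm]
  exact mulA_mul ha (hO z n hn hz)

end Vale.Agent.P022.H220
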