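import Vale.Agent.P022.H472.Lit2
import Vale.Agent.P022.H783.Comm
import Vale.Agent.P022.H783.QE
import Vale.Agent.P022.H220.Exp2

/-!
# P022, weight-free Hecke calculus

To a form `G` of weight `k` and level `Γ₁(N)` we attach `c(n, d) = d ^ k a_n(⟨d⟩ G)`.  On these
functions `T_ℓ` and `ℓ S_ℓ` act by formulas which do not involve the weight.
-/

open Complex UpperHalfPlane CongruenceSubgroup Matrix
open scoped Real MatrixGroups ModularForm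

noncomputable section

namespace Vale.Agent.P022.H220

/-! ### the formal operators -/

/-- the formal operator `T_ℓ` -/
def UT (ℓ : ℕ) : Module.End ℂ (ℕ → ℕ → ℂ) where
  toFun c n d := c (ℓ * n) d + if ℓ ∣ n then (ℓ : ℂ)⁻¹ * c (n / ℓ) (ℓ * d) else 0
  map_add' x y := by
    funext n d
    simp only [Pi.add_apply]
    split_ifs <;> ring
  map_smul' z x := by
    funext n d
    simp only [Pi.smul_apply, smul_eq_mul, RingHom.id_apply]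
    split_ifs <;> ring

/-- the formal operator `ℓ S_ℓ` -/
def US (ℓ : ℕ) : Module.End ℂ (ℕ → ℕ → ℂ) where
  toFun c n d := (ℓ : ℂ)⁻¹ * c n (ℓ * d)
  map_add' x y := by
    funext n d
    simp only [Pi.add_apply]
    ring
  map_smul' z x := by
    funext n d
    simp only [Pi.smul_apply, smul_eq_mul, RingHom.id_apply]
    ring

theorem UT_apply (ℓ : ℕ) (c : ℕ → ℕ → ℂ) (n d : ℕ) :
    UT ℓ c n d = c (ℓ * n) d + if ℓ ∣ n then (ℓ : ℂ)⁻¹ * c (n / ℓ) (ℓ * d) else 0 := rfl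

theorem US_apply (ℓ : ℕ) (c : ℕ → ℕ → ℂ) (n d : ℕ) : US ℓ c n d = (ℓ : ℂ)⁻¹ * c n (ℓ * d) := rfl

/-- polynomials in the formal operators -/
def Wd (N : ℕ) : FreeAlgebra ℤ (Gen N) →ₐ[ℤ] Module.End ℂ (ℕ → ℕ → ℂ) :=
  FreeAlgebra.lift ℤ (Sum.elim (fun ℓ => UT ℓ.1) (fun ℓ => US ℓ.1))

/-- functions with values in `A` at all `d` prime to `2N` -/
def Cin (N : ℕ) (A : AddSubgroup ℂ) : AddSubgroup (ℕ → ℕ → ℂ) where
  carrier := {c | ∀ n d, Nat.Coprime d (2 * N) → c n d ∈ A}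
  zero_mem' := fun _ _ _ => A.zero_mem
  add_mem' := fun hx hy n d h => A.add_mem (hx n d h) (hy n d h)
  neg_mem' := fun hx n d h => A.neg_mem (hx n d h)

theorem mem_Cin {N : ℕ} {A : AddSubgroup ℂ} {c : ℕ → ℕ → ℂ} :
    c ∈ Cin N A ↔ ∀ n d, Nat.Coprime d (2 * N) → c n d ∈ A := Iff.rfl

theorem PA.coprime2 {N : ℕ} (ℓ : PA N) : Nat.Coprime ℓ.1 (2 * N) :=
  (Nat.Prime.coprime_iff_not_dvd ℓ.2.1).2 ℓ.2.2

theorem gen_mem {N : ℕ} {A : AddSubgroup ℂ} (hA : ∀ ℓ : PA N, ∀ a ∈ A, (ℓ.1 : ℂ)⁻¹ * a ∈ A)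
    (s : Gen N) {c : ℕ → ℕ → ℂ} (hc : c ∈ Cin N A) : Wd N (FreeAlgebra.ι ℤ s) c ∈ Cin N A := by
  rw [Wd, FreeAlgebra.lift_ι_apply]
  intro n d hd
  rcases s with ℓ | ℓ
  · simp only [Sum.elim_inl, UT_apply]
    refine A.add_mem (hc _ _ hd) ?_
    split_ifs
    · exact hA ℓ _ (hc _ _ (Nat.Coprime.mul_left (PA.coprime2 ℓ) hd))
    · exact A.zero_mem
  · simp only [Sum.elim_inr, US_apply]
    exact hA ℓ _ (hc _ _ (Nat.Coprime.mul_left (PA.coprime2 ℓ) hd))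

/-- the formal operators preserve congruences -/
theorem wd_mem {N : ℕ} {A : AddSubgroup ℂ} (hA : ∀ ℓ : PA N, ∀ a ∈ A, (ℓ.1 : ℂ)⁻¹ * a ∈ A)
    (P : FreeAlgebra ℤ (Gen N)) : ∀ {c : ℕ → ℕ → ℂ}, c ∈ Cin N A → Wd N P c ∈ Cin N A := by
  induction P using FreeAlgebra.induction with
  | grade0 r =>
    intro c hc
    rw [AlgHom.commutes]
    rw [Module.algebraMap_end_apply]
    exact (Cin N A).zsmul_mem hc r
  | grade1 s => exact gen_mem hA s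
  | mul P Q hP hQ =>
    intro c hc
    rw [map_mul]
    exact hP (hQ hc)
  | add P Q hP hQ =>
    intro c hc
    rw [map_add]
    exact (Cin N A).add_mem (hP hc) (hQ hc)

theorem wd_cong {N : ℕ} {A : AddSubgroup ℂ} (hA : ∀ ℓ : PA N, ∀ a ∈ A, (ℓ.1 : ℂ)⁻¹ * a ∈ A)
    (P : FreeAlgebra ℤ (Gen N)) {c c' : ℕ → ℕ → ℂ} (h : c - c' ∈ Cin N A) :
    Wd N P c - Wd N P c' ∈ Cin N A := by
  rw [← map_sub]
  exact wd_mem hA P h

/-! ### forms -/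

/-- `f | s` depends only on the lower right entry of `s ∈ Γ₀(N)` modulo `N` -/
theorem slash_congr {N k : ℕ} {s t : SL(2, ℤ)} (hs : s ∈ Gamma0 N) (ht : t ∈ Gamma0 N)
    (h : ((s 1 1 : ℤ) : ZMod N) = ((t 1 1 : ℤ) : ZMod N)) (f : MF N k) :
    (f : ℍ → ℂ) ∣[(k : ℤ)] s = (f : ℍ → ℂ) ∣[(k : ℤ)] t := by
  have h0 : s * t⁻¹ ∈ Gamma0 N := (Gamma0 N).mul_mem hs ((Gamma0 N).inv_mem ht)
  have hm : s * t⁻¹ ∈ Gamma1 N := by
    have h1 : (⟨_, h0⟩ : Gamma0 N) ∈ Gamma1' N := by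
      rw [Gamma1_mem']
      have e : (⟨_, h0⟩ : Gamma0 N) = ⟨s, hs⟩ * (⟨t, ht⟩ : Gamma0 N)⁻¹ := rfl
      have e2 : Gamma0Map N ⟨s, hs⟩ = Gamma0Map N ⟨t, ht⟩ := h
      rw [e, map_mul, e2, ← map_mul, mul_inv_cancel, map_one]
    rw [Gamma1_to_Gamma0_mem] at h1
    rw [Gamma1_mem]
    exact h1
  have h2 : (f : ℍ → ℂ) ∣[(k : ℤ)] (s * t⁻¹) = f :=
    f.slash_action_eq' _ (Subgroup.mem_map_of_mem (SpecialLinearGroup.mapGL ℝ) hm)
  have h3 : s = (s * t⁻¹) * t := by group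
  conv_lhs => rw [h3, SlashAction.slash_mul, h2]

/-- the product of two diamonds -/
theorem gd_mul {N k : ℕ} {a b : ℕ} (ha : Nat.Coprime a N) (hb : Nat.Coprime b N)
    (hab : Nat.Coprime (a * b) N) (f : MF N k) :
    ((f : ℍ → ℂ) ∣[(k : ℤ)] gd N a ha) ∣[(k : ℤ)] gd N b hb =
      (f : ℍ → ℂ) ∣[(k : ℤ)] gd N (a * b) hab := by
  rw [← SlashAction.slash_mul]
  have hm : gd N a ha * gd N b hb ∈ Gamma0 N :=
    (Gamma0 N).mul_mem (H783.gd_mem ha) (H783.gd_mem hb)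
  refine slash_congr hm (H783.gd_mem hab) ?_ f
  have e : (((gd N a ha * gd N b hb) 1 1 : ℤ) : ZMod N) =
      ((gd N a ha 1 1 : ℤ) : ZMod N) * ((gd N b hb 1 1 : ℤ) : ZMod N) :=
    map_mul (Gamma0Map N) ⟨gd N a ha, H783.gd_mem ha⟩ ⟨gd N b hb, H783.gd_mem hb⟩
  rw [e, H783.gd_d ha, H783.gd_d hb, H783.gd_d hab]
  push_cast
  ring

/-- `c n d = d ^ k a_n(⟨d⟩ G)` for all `d` prime to `N` -/
def IsC (N k : ℕ) (G : ℍ → ℂ) (c : ℕ → ℕ → ℂ) : Prop :=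
  ∀ (d : ℕ) (h : Nat.Coprime d N) (τ : ℍ),
    HasSum (fun n : ℕ => c n d * cexp (2 * π * Complex.I * n * (τ : ℂ) / (1 : ℕ)))
      ((d : ℂ) ^ k * (G ∣[(k : ℤ)] gd N d h) τ)

theorem qq_eq (τ : ℍ) (n : ℕ) :
    Function.Periodic.qParam 1 (τ : ℂ) ^ n = cexp (2 * π * Complex.I * n * (τ : ℂ) / (1 : ℕ)) := by
  rw [Function.Periodic.qParam, ← Complex.exp_nat_mul]
  congr 1
  push_cast
  ring

theorem hasSum_form {N : ℕ} [NeZero N] {k : ℕ} (f : MF N k) :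
    ∃ a : ℕ → ℂ, ∀ τ : ℍ,
      HasSum (fun n : ℕ => a n * cexp (2 * π * Complex.I * n * (τ : ℂ) / (1 : ℕ))) (f τ) := by
  refine ⟨fun n => (qExpansion 1 f).coeff n, fun τ => ?_⟩
  refine hs_congr' (H783.hasSum_form f τ) fun n => ?_
  rw [← qq_eq]

theorem exists_isC {N : ℕ} [NeZero N] {k : ℕ} (G : MF N k) : ∃ c, IsC N k G c := by
  classical
  have h1 : ∀ (d : ℕ), ∃ a : ℕ → ℂ, ∀ (h : Nat.Coprime d N) (τ : ℍ),
      HasSum (fun n : ℕ => a n * cexp (2 * π * Complex.I * n * (τ : ℂ) / (1 : ℕ)))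
        (((G : ℍ → ℂ) ∣[(k : ℤ)] gd N d h) τ) := by
    intro d
    by_cases h : Nat.Coprime d N
    · obtain ⟨a, ha⟩ := hasSum_form (H783.slG0 (H783.gd_mem h) k G)
      refine ⟨a, fun h' τ => ?_⟩
      have := ha τ
      rw [H783.slG0_coe] at this
      exact this
    · exact ⟨0, fun h' => absurd h' h⟩
  choose a ha using h1
  exact ⟨fun n d => (d : ℂ) ^ k * a d n, fun d h τ =>
    hs_congr' ((ha d h τ).mul_left ((d : ℂ) ^ k)) fun n => by ring⟩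

theorem IsC.zero (N k : ℕ) : IsC N k (0 : ℍ → ℂ) 0 := by
  intro d h τ
  rw [SlashAction.zero_slash]
  simp

theorem IsC.add {N k : ℕ} {G H : ℍ → ℂ} {c e : ℕ → ℕ → ℂ} (hc : IsC N k G c) (he : IsC N k H e) :
    IsC N k (G + H) (c + e) := by
  intro d h τ
  rw [SlashAction.add_slash, Pi.add_apply, mul_add]
  exact hs_congr' ((hc d h τ).add (he d h τ)) fun n => by simp only [Pi.add_apply]; ring

theorem IsC.smul {N k : ℕ} {G : ℍ → ℂ} {c : ℕ → ℕ → ℂ} (z : ℂ) (hc : IsC N k G c) :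
    IsC N k (z • G) (z • c) := by
  intro d h τ
  have e : ((z • G) ∣[(k : ℤ)] gd N d h) τ = z * (G ∣[(k : ℤ)] gd N d h) τ := by
    rw [ModularForm.SL_smul_slash]
    rfl
  rw [e]
  have h2 := (hc d h τ).mul_left z
  have e2 : (d : ℂ) ^ k * (z * (G ∣[(k : ℤ)] gd N d h) τ) =
      z * ((d : ℂ) ^ k * (G ∣[(k : ℤ)] gd N d h) τ) := by ring
  rw [e2]
  exact hs_congr' h2 fun n => by simp only [Pi.smul_apply, smul_eq_mul]; ring

theorem IsC.unique {N k : ℕ} {G : ℍ → ℂ} {c e : ℕ → ℕ → ℂ} (hc : IsC N k G c)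
    (he : IsC N k G e) (n d : ℕ) (h : Nat.Coprime d N) : c n d = e n d :=
  Ex.unique (a := fun n => c n d) (b := fun n => e n d) one_pos (hc d h) (he d h) n

/-- `T_ℓ` -/
theorem isC_T {N : ℕ} [NeZero N] (i : ℕ) (ℓ : PA N) (G : MF N (i + 1)) {c : ℕ → ℕ → ℂ}
    (hc : IsC N (i + 1) G c) : IsC N (i + 1) (H783.Tl (i + 1) ℓ G) (UT ℓ.1 c) := by
  intro d h τ
  have hℓ0 : (ℓ.1 : ℂ) ≠ 0 := by exact_mod_cast ℓ.2.1.ne_zero
  -- `(T G) | gd = T (G | gd)`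
  have e1 : ((H783.Tl (i + 1) ℓ G : MF N (i + 1)) : ℍ → ℂ) ∣[((i + 1 : ℕ) : ℤ)] gd N d h =
      tFun N (i + 1) ℓ (G ∣[((i + 1 : ℕ) : ℤ)] gd N d h) := by
    rw [← H783.slG0_coe (H783.gd_mem h) (i + 1) (H783.Tl (i + 1) ℓ G), ← H783.Tl_slG0,
      H783.Tl_coe, H783.slG0_coe]
  have hdl : Nat.Coprime (d * ℓ.1) N := Nat.Coprime.mul_left h ℓ.coprime
  have hld : Nat.Coprime (ℓ.1 * d) N := Nat.Coprime.mul_left ℓ.coprime h
  have e2 : dFun N (i + 1) ℓ ((G : ℍ → ℂ) ∣[((i + 1 : ℕ) : ℤ)] gd N d h) =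
      (G : ℍ → ℂ) ∣[((i + 1 : ℕ) : ℤ)] gd N (ℓ.1 * d) hld := by
    rw [dFun, gd_mul h ℓ.coprime hdl]
    refine slash_congr (H783.gd_mem hdl) (H783.gd_mem hld) ?_ G
    rw [H783.gd_d hdl, H783.gd_d hld, mul_comm]
  by_cases hd0 : d = 0
  · -- then `N = 1` and `d = 0`; both sides vanish
    subst hd0
    have h3 : ∀ (x : ℕ) (hx : Nat.Coprime 0 N), c x 0 = 0 := by
      intro x hx
      have h4 := hc 0 hx
      have h5 : ∀ τ : ℍ, HasSum (fun n : ℕ => (0 : ℂ) *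
          cexp (2 * π * Complex.I * n * (τ : ℂ) / (1 : ℕ)))
          (((0 : ℕ) : ℂ) ^ (i + 1) * ((G : ℍ → ℂ) ∣[((i + 1 : ℕ) : ℤ)] gd N 0 hx) τ) := by
        intro τ
        simp
      exact Ex.unique (a := fun n => c n 0) (b := fun n => 0) one_pos h4 h5 x
    have h6 : ∀ n, UT ℓ.1 c n 0 = 0 := by
      intro n
      rw [UT_apply, mul_zero, h3 _ h, h3 _ h]
      simp
    simp only [h6]
    simp
  have hd0' : (d : ℂ) ≠ 0 := by exact_mod_cast hd0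
  have hdk : (d : ℂ) ^ (i + 1) ≠ 0 := pow_ne_zero _ hd0'
  have f1 : ∀ τ : ℍ, HasSum (fun n : ℕ => ((d : ℂ) ^ (i + 1))⁻¹ * c n d *
      cexp (2 * π * Complex.I * n * (τ : ℂ) / (1 : ℕ)))
      (((G : ℍ → ℂ) ∣[((i + 1 : ℕ) : ℤ)] gd N d h) τ) := by
    intro τ
    have := (hc d h τ).mul_left ((d : ℂ) ^ (i + 1))⁻¹
    rw [← mul_assoc, inv_mul_cancel₀ hdk, one_mul] at this
    exact hs_congr' this fun n => by ring
  have f2 : ∀ τ : ℍ, HasSum (fun n : ℕ => (((ℓ.1 * d : ℕ) : ℂ) ^ (i + 1))⁻¹ * c n (ℓ.1 * d) *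
      cexp (2 * π * Complex.I * n * (τ : ℂ) / (1 : ℕ)))
      (dFun N (i + 1) ℓ ((G : ℍ → ℂ) ∣[((i + 1 : ℕ) : ℤ)] gd N d h) τ) := by
    intro τ
    rw [e2]
    have hne : (((ℓ.1 * d : ℕ) : ℂ) ^ (i + 1)) ≠ 0 := by
      push_cast
      exact pow_ne_zero _ (mul_ne_zero hℓ0 hd0')
    have := (hc _ hld τ).mul_left (((ℓ.1 * d : ℕ) : ℂ) ^ (i + 1))⁻¹
    rw [← mul_assoc, inv_mul_cancel₀ hne, one_mul] at this
    exact hs_congr' this fun n => by ring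
  have f3 := (Ex.hasSum_tFun ℓ i f1 f2 τ).mul_left ((d : ℂ) ^ (i + 1))
  rw [e1]
  refine hs_congr' f3 fun n => ?_
  rw [UT_apply]
  split_ifs with hn
  · push_cast
    rw [mul_pow]
    field_simp
    ring
  · rw [add_zero, add_zero]
    field_simp

/-- `ℓ S_ℓ` -/
theorem isC_S {N : ℕ} [NeZero N] (i : ℕ) (ℓ : PA N) (G : MF N (i + 1)) {c : ℕ → ℕ → ℂ}
    (hc : IsC N (i + 1) G c) :
    IsC N (i + 1) ((((ℓ.1 : ℂ) ^ i) • H783.dia (i + 1) ℓ) G : MF N (i + 1)) (US ℓ.1 c) := by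
  intro d h τ
  have hℓ0 : (ℓ.1 : ℂ) ≠ 0 := by exact_mod_cast ℓ.2.1.ne_zero
  have hld : Nat.Coprime (ℓ.1 * d) N := Nat.Coprime.mul_left ℓ.coprime h
  have e0 : ((((((ℓ.1 : ℂ) ^ i) • H783.dia (i + 1) ℓ) G : MF N (i + 1)) : ℍ → ℂ)
      ∣[((i + 1 : ℕ) : ℤ)] gd N d h) τ =
      (ℓ.1 : ℂ) ^ i * ((G : ℍ → ℂ) ∣[((i + 1 : ℕ) : ℤ)] gd N (ℓ.1 * d) hld) τ := by
    have e1 : ((((((ℓ.1 : ℂ) ^ i) • H783.dia (i + 1) ℓ) G : MF N (i + 1)) : ℍ → ℂ)) =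
        ((ℓ.1 : ℂ) ^ i) • ((G : ℍ → ℂ) ∣[((i + 1 : ℕ) : ℤ)] gd N ℓ.1 ℓ.coprime) := by
      rw [← dFun, ← H783.dia_coe]
      rfl
    rw [e1, ModularForm.SL_smul_slash, gd_mul ℓ.coprime h hld]
    rfl
  rw [e0]
  have h2 := (hc _ hld τ).mul_left (ℓ.1 : ℂ)⁻¹
  have e3 : (ℓ.1 : ℂ)⁻¹ * (((ℓ.1 * d : ℕ) : ℂ) ^ (i + 1) *
      ((G : ℍ → ℂ) ∣[((i + 1 : ℕ) : ℤ)] gd N (ℓ.1 * d) hld) τ) =
      (d : ℂ) ^ (i + 1) * ((ℓ.1 : ℂ) ^ i *
        ((G : ℍ → ℂ) ∣[((i + 1 : ℕ) : ℤ)] gd N (ℓ.1 * d) hld) τ) := by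
    push_cast
    rw [mul_pow, pow_succ (ℓ.1 : ℂ)]
    field_simp
  rw [e3] at h2
  refine hs_congr' h2 fun n => ?_
  rw [US_apply]
  ring

/-- words act by the formal operators -/
theorem isC_word {N : ℕ} [NeZero N] (i : ℕ) (P : FreeAlgebra ℤ (Gen N)) :
    ∀ (G : MF N (i + 1)) {c : ℕ → ℕ → ℂ}, IsC N (i + 1) G c →
      IsC N (i + 1) (FreeAlgebra.lift ℤ (fun s => gHk N s i) P G : MF N (i + 1)) (Wd N P c) := by
  induction P using FreeAlgebra.induction with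
  | grade0 r =>
    intro G c hc
    rw [AlgHom.commutes, AlgHom.commutes, Module.algebraMap_end_apply,
      Module.algebraMap_end_apply]
    have h := hc.smul (r : ℂ)
    have e1 : ((r • G : MF N (i + 1)) : ℍ → ℂ) = (r : ℂ) • (G : ℍ → ℂ) := by
      ext τ
      simp
    have e2 : r • c = (r : ℂ) • c := by
      ext n d
      simp
    rw [e1, e2]
    exact h
  | grade1 s =>
    intro G c hc
    rw [FreeAlgebra.lift_ι_apply, Wd, FreeAlgebra.lift_ι_apply]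
    rcases s with ℓ | ℓ
    · exact isC_T i ℓ G hc
    · exact isC_S i ℓ G hc
  | mul P Q hP hQ =>
    intro G c hc
    rw [map_mul, map_mul]
    exact hP _ (hQ _ hc)
  | add P Q hP hQ =>
    intro G c hc
    rw [map_add, map_add]
    exact (hP _ hc).add (hQ _ hc)

/-- a polynomial which kills the weight of `G` kills its function -/
theorem wd_eq_zero {N : ℕ} [NeZero N] (i : ℕ) (P : FreeAlgebra ℤ (Gen N))
    (hP : FreeAlgebra.lift ℤ (fun s => gHk N s i) P = 0) (G : MF N (i + 1)) {c : ℕ → ℕ → ℂ}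
    (hc : IsC N (i + 1) G c) (n d : ℕ) (h : Nat.Coprime d N) : Wd N P c n d = 0 := by
  have h1 := isC_word i P G hc
  rw [hP] at h1
  exact h1.unique (IsC.zero N (i + 1)) n d h

/-- **[UNI]** if `c` is congruent modulo `A` to a combination (with arbitrary complex
coefficients) of the functions of forms of weights killed by `P`, then `P c` is `0` modulo `A` -/
theorem kill {N : ℕ} [NeZero N] {A : AddSubgroup ℂ}
    (hA : ∀ ℓ : PA N, ∀ a ∈ A, (ℓ.1 : ℂ)⁻¹ * a ∈ A) {J : Type} [Fintype J]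
    (i : J → ℕ) (G : ∀ j, MF N (i j + 1)) (b : J → ℂ) (cG : J → ℕ → ℕ → ℂ)
    (hG : ∀ j, IsC N (i j + 1) (G j) (cG j)) {c : ℕ → ℕ → ℂ}
    (hc : ∀ n d, Nat.Coprime d (2 * N) → c n d - ∑ j, b j * cG j n d ∈ A)
    (P : FreeAlgebra ℤ (Gen N)) (hP : ∀ j, FreeAlgebra.lift ℤ (fun s => gHk N s (i j)) P = 0)
    (n d : ℕ) (hd : Nat.Coprime d (2 * N)) : Wd N P c n d ∈ A := by
  have h1 : c - ∑ j, b j • cG j ∈ Cin N A := by
    intro n d hd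
    have := hc n d hd
    simpa [Finset.sum_apply] using this
  have h2 := wd_cong hA P h1 n d hd
  have h3 : Wd N P (∑ j, b j • cG j) n d = 0 := by
    rw [map_sum, Finset.sum_apply, Finset.sum_apply]
    refine Finset.sum_eq_zero fun j _ => ?_
    rw [map_smul, Pi.smul_apply, Pi.smul_apply,
      wd_eq_zero (i j) P (hP j) (G j) (hG j) n d (Nat.Coprime.coprime_mul_left_right hd),
      smul_zero]
  rw [Pi.sub_apply, Pi.sub_apply, h3, sub_zero] at h2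
  exact h2

end Vale.Agent.P022.H220
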