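import Vale.Agent.P022.H220.Ser

/-!
# P022: shells in imaginary quadratic fields are finite; the norm is the square of the absolute
value.
-/

open Ideal NumberField

namespace Vale.Agent.P022.H220

variable {K : Type*} [Field K] [NumberField K]

theorem unique_place (h2 : Module.finrank ℚ K = 2) (hc : IsTotallyComplex K) :
    Fintype.card (InfinitePlace K) = 1 := by
  have h1 := InfinitePlace.card_add_two_mul_card_eq_rank K
  have h0 : InfinitePlace.nrRealPlaces K = 0 := nrRealPlaces_eq_zero_iff.mpr hc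
  rw [h0, h2] at h1
  rw [InfinitePlace.card_eq_nrRealPlaces_add_nrComplexPlaces, h0]
  omega

/-- `|φ x| ^ 2 = |N x|`. -/
theorem sq_norm_eq (h2 : Module.finrank ℚ K = 2) (hc : IsTotallyComplex K) (φ : K →+* ℂ) (x : K) :
    ‖φ x‖ ^ 2 = |((Algebra.norm ℚ x : ℚ) : ℝ)| := by
  classical
  obtain ⟨w, hw⟩ := Fintype.card_eq_one_iff.mp (unique_place h2 hc)
  have h1 := InfinitePlace.prod_eq_abs_norm x
  have huniv : (Finset.univ : Finset (InfinitePlace K)) = {InfinitePlace.mk φ} := by
    ext v
    simp [hw v, hw (InfinitePlace.mk φ)]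
  rw [huniv, Finset.prod_singleton] at h1
  have hm : (InfinitePlace.mk φ).mult = 2 := by
    have hh : (InfinitePlace.mk φ).IsComplex := hc.isComplex _
    rw [InfinitePlace.mult, if_neg]
    rwa [InfinitePlace.not_isReal_iff_isComplex]
  rw [hm, InfinitePlace.apply] at h1
  rw [h1]
  norm_cast

/-- `|φ α| ^ 2 = N (α)` for integers. -/
theorem sq_norm_int (h2 : Module.finrank ℚ K = 2) (hc : IsTotallyComplex K) (φ : K →+* ℂ)
    (α : 𝓞 K) : ‖φ (α : K)‖ ^ 2 = (absNorm (span {α}) : ℝ) := by
  rw [sq_norm_eq h2 hc, absNorm_span_singleton, ← Algebra.coe_norm_int, Nat.cast_natAbs]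
  push_cast
  rfl

theorem finShell_imag (h2 : Module.finrank ℚ K = 2) (hc : IsTotallyComplex K) :
    FinShell (𝓞 K) := by
  intro n
  have hf := Embeddings.finite_of_norm_le K ℂ (n + 1 : ℝ)
  have hi : Function.Injective (fun α : 𝓞 K => (α : K)) := RingOfIntegers.coe_injective
  refine (hf.preimage hi.injOn).subset ?_
  intro α hα
  have hα' : absNorm (span {α}) = n := hα
  refine ⟨α.isIntegral_coe, fun φ => ?_⟩
  have h1 := sq_norm_int h2 hc φ α
  rw [hα'] at h1
  nlinarith [norm_nonneg (φ (α : K)), (Nat.cast_nonneg n : (0 : ℝ) ≤ n)]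

end Vale.Agent.P022.H220
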