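import Mathlib

/-!
# P022, block [SER]: the series identity behind `T_l Θ_{b,f} = ∑_{N p = l} Θ_{bp,f}`

`R` is a Dedekind domain, free of rank two over `ℤ` (the ring of integers of a quadratic field),
`l` a prime which is not ramified in `R`, `Pl R l` the finite set of ideals of norm `l`.
-/

open Ideal

namespace Vale.Agent.P022.H220

set_option linter.unusedSectionVars false

variable {R : Type*} [CommRing R] [IsDedekindDomain R] [Module.Free ℤ R] [Module.Finite ℤ R]
  [CharZero R]

variable (R) in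
/-- The ideals of norm `l`. -/
noncomputable def Pl (l : ℕ) : Finset (Ideal R) := (finite_setOfPred_absNorm_eq (S := R) l).toFinset

@[simp] theorem mem_Pl {l : ℕ} {p : Ideal R} : p ∈ Pl R l ↔ absNorm p = l := by
  simp [Pl]

variable (R) in
/-- `l` is unramified: no ideal of norm `l` has square `(l)`. -/
def Unram (l : ℕ) : Prop := ∀ p : Ideal R, absNorm p = l → p ^ 2 ≠ span {(l : R)}

/-- The sign of `l`: number of ideals of norm `l`, minus one. -/
noncomputable def chi (R : Type*) [CommRing R] [IsDedekindDomain R] [Module.Free ℤ R]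
    [Module.Finite ℤ R] [CharZero R] (l : ℕ) : ℤ := ((Pl R l).card : ℤ) - 1

theorem dvd_l {l : ℕ} {p : Ideal R} (h : absNorm p = l) : p ∣ span {(l : R)} := by
  rw [Ideal.dvd_span_singleton]
  have := absNorm_mem p
  rwa [h] at this

theorem eq_of_dvd_of_norm {p q : Ideal R} (h : p ∣ q) (hn : absNorm p = absNorm q)
    (h0 : absNorm q ≠ 0) : p = q := by
  obtain ⟨c, rfl⟩ := h
  rw [map_mul] at hn h0
  have hc : absNorm c = 1 := by
    have hp : absNorm p ≠ 0 := left_ne_zero_of_mul h0
    have : absNorm p * 1 = absNorm p * absNorm c := by rw [mul_one]; exact hn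
    exact (Nat.eq_of_mul_eq_mul_left (Nat.pos_of_ne_zero hp) this).symm
  rw [absNorm_eq_one_iff] at hc
  rw [hc, Ideal.mul_top]

section rank2

variable (h2 : Module.finrank ℤ R = 2) {l : ℕ} (hl : l.Prime)

include h2

theorem norm_l : absNorm (span {(l : R)}) = l ^ 2 := by
  rw [absNorm_span_natCast, h2]

include hl

theorem exists_cofactor {p : Ideal R} (h : absNorm p = l) :
    ∃ q : Ideal R, absNorm q = l ∧ p * q = span {(l : R)} := by
  obtain ⟨q, hq⟩ := dvd_l h
  refine ⟨q, ?_, hq.symm⟩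
  have h1 := norm_l (R := R) h2 (l := l)
  rw [hq, map_mul, h, sq] at h1
  exact Nat.eq_of_mul_eq_mul_left hl.pos h1

omit h2 in
theorem prime_of_norm {p : Ideal R} (h : absNorm p = l) : Prime p := by
  have hi : Irreducible p := irreducible_of_irreducible_absNorm (by rw [h]; exact hl)
  exact UniqueFactorizationMonoid.irreducible_iff_prime.mp hi

omit h2 in
theorem eq_of_dvd' {p q : Ideal R} (hp : absNorm p = l) (hq : absNorm q = l) (h : p ∣ q) :
    p = q := eq_of_dvd_of_norm h (by rw [hp, hq]) (by rw [hq]; exact hl.ne_zero)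

/-- Either no ideal has norm `l`, or exactly two, whose product is `(l)`. -/
theorem split_or_inert (hu : Unram R l) :
    (∃ p q : Ideal R, p ≠ q ∧ absNorm p = l ∧ absNorm q = l ∧ p * q = span {(l : R)} ∧
      Pl R l = {p, q}) ∨ Pl R l = ∅ := by
  classical
  by_cases hE : Pl R l = ∅
  · exact Or.inr hE
  left
  obtain ⟨p, hp⟩ := Finset.nonempty_iff_ne_empty.mpr hE
  rw [mem_Pl] at hp
  obtain ⟨q, hq, hpq⟩ := exists_cofactor h2 hl hp
  have hne : p ≠ q := by
    intro h
    apply hu p hp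
    rw [sq]
    nth_rw 2 [h]
    exact hpq
  refine ⟨p, q, hne, hp, hq, hpq, ?_⟩
  ext r
  rw [mem_Pl, Finset.mem_insert, Finset.mem_singleton]
  constructor
  · intro hr
    have h1 : r ∣ p * q := by rw [hpq]; exact dvd_l hr
    rcases (prime_of_norm hl hr).dvd_or_dvd h1 with h3 | h3
    · exact Or.inl (eq_of_dvd' hl hr hp h3)
    · exact Or.inr (eq_of_dvd' hl hr hq h3)
  · rintro (rfl | rfl)
    · exact hp
    · exact hq

theorem exists_dvd {a : Ideal R} (ha : l ∣ absNorm a) :
    (∃ p ∈ Pl R l, p ∣ a) ∨ span {(l : R)} ∣ a := by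
  obtain ⟨P, hP, hu, hPa⟩ := exists_isMaximal_dvd_of_dvd_absNorm' hl a ha
  have hlP : (l : R) ∈ P := by
    have : (l : ℤ) ∈ P.under ℤ := by rw [hu]; exact Ideal.mem_span_singleton_self _
    rw [Ideal.under, Ideal.mem_comap] at this
    simpa using this
  have hd : P ∣ span {(l : R)} := by rwa [Ideal.dvd_span_singleton]
  have hn : absNorm P ∣ l ^ 2 := by
    rw [← norm_l (R := R) h2]
    exact map_dvd absNorm hd
  obtain ⟨k, hk, hk'⟩ := (Nat.dvd_prime_pow hl).mp hn
  interval_cases k
  · rw [pow_zero, absNorm_eq_one_iff] at hk'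
    exact absurd hk' hP.ne_top
  · left
    exact ⟨P, by rw [mem_Pl, hk', pow_one], hPa⟩
  · right
    have : P = span {(l : R)} := eq_of_dvd_of_norm hd (by rw [hk', norm_l (R := R) h2])
      (by rw [norm_l (R := R) h2]; exact pow_ne_zero _ hl.ne_zero)
    rw [← this]
    exact hPa

/-- **(A)** The number of ideals of norm `l` dividing an ideal whose norm is divisible by `l`. -/
theorem card_dvd (hu : Unram R l) {a : Ideal R} (ha : l ∣ absNorm a) [DecidablePred (· ∣ a)] :
    (((Pl R l).filter (· ∣ a)).card : ℤ) = 1 + chi R l * (if span {(l : R)} ∣ a then 1 else 0) := by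
  classical
  rcases split_or_inert h2 hl hu with ⟨p, q, hne, hp, hq, hpq, hPl⟩ | hE
  · have hc : chi R l = 1 := by
      rw [chi, hPl, Finset.card_pair hne]; norm_num
    have hmul : (p ∣ a ∧ q ∣ a) ↔ span {(l : R)} ∣ a := by
      rw [← hpq]
      constructor
      · rintro ⟨⟨c, rfl⟩, h⟩
        rcases (prime_of_norm hl hq).dvd_or_dvd h with h3 | h3
        · exact absurd (eq_of_dvd' hl hq hp h3).symm hne
        · exact mul_dvd_mul_left p h3
      · intro h
        exact ⟨(dvd_mul_right p q).trans h, (dvd_mul_left q p).trans h⟩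
    have hor : p ∣ a ∨ q ∣ a := by
      rcases exists_dvd h2 hl ha with ⟨r, hr, hra⟩ | h
      · rw [hPl, Finset.mem_insert, Finset.mem_singleton] at hr
        rcases hr with rfl | rfl
        · exact Or.inl hra
        · exact Or.inr hra
      · exact Or.inl (hmul.mpr h).1
    rw [hc, one_mul, hPl, Finset.filter_insert, Finset.filter_singleton]
    by_cases h1 : p ∣ a <;> by_cases h3 : q ∣ a
    · rw [if_pos h1, if_pos h3, if_pos (hmul.mp ⟨h1, h3⟩)]
      have : (insert p ({q} : Finset (Ideal R))).card = 2 := Finset.card_pair hne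
      rw [this]; norm_num
    · rw [if_pos h1, if_neg h3, if_neg (fun h => h3 (hmul.mpr h).2)]
      simp
    · rw [if_neg h1, if_pos h3, if_neg (fun h => h1 (hmul.mpr h).1)]
      simp
    · exact absurd hor (by tauto)
  · have hc : chi R l = -1 := by
      rw [chi, hE]; simp
    have hd : span {(l : R)} ∣ a := by
      rcases exists_dvd h2 hl ha with ⟨r, hr, _⟩ | h
      · rw [hE] at hr; simp at hr
      · exact h
    rw [hc, if_pos hd, hE]
    simp

end rank2

section shells

variable (R) in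
/-- There are finitely many elements of each norm (true in an imaginary quadratic field). -/
def FinShell : Prop := ∀ n : ℕ, {α : R | absNorm (span {α}) = n}.Finite

/-- Coefficient of `q ^ n` in `∑_{α ∈ b} g α q ^ (N α / N b)`. -/
noncomputable def A {M : Type*} [AddCommGroup M] (b : Ideal R) (g : R → M) (n : ℕ) : M :=
  ∑ᶠ α ∈ {α : R | α ∈ b ∧ absNorm (span {α}) = n * absNorm b}, g α

variable {M : Type*} [AddCommGroup M]

open Classical in
theorem sum_shell (hf : FinShell R) (b : Ideal R) (g : R → M) (N : ℕ) :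
    ∑ᶠ α ∈ {α : R | α ∈ b ∧ absNorm (span {α}) = N}, g α
      = ∑ α ∈ (hf N).toFinset, if α ∈ b then g α else 0 := by
  have : {α : R | α ∈ b ∧ absNorm (span {α}) = N}
      = (((hf N).toFinset.filter (· ∈ b) : Finset R) : Set R) := by
    ext α
    simp [and_comm]
  rw [← Finset.sum_filter, this, finsum_mem_coe_finset]

theorem mem_mul_iff_dvd {b p : Ideal R} {a : Ideal R} (hb : b ≠ ⊥) {α : R}
    (ha : span {α} = b * a) : α ∈ b * p ↔ p ∣ a := by
  rw [← Ideal.dvd_span_singleton, ha]
  exact mul_dvd_mul_iff_left hb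

variable (h2 : Module.finrank ℤ R = 2) {l : ℕ} (hl : l.Prime)

include h2 hl

/-- **(B1)** with the second term as a sum over `l b`. -/
theorem ser_aux (hf : FinShell R) (hu : Unram R l) {b : Ideal R} (hb : b ≠ ⊥) (g : R → M) (n : ℕ) :
    A b g (l * n) + chi R l •
        (∑ᶠ α ∈ {α : R | α ∈ b * span {(l : R)} ∧ absNorm (span {α}) = l * n * absNorm b}, g α)
      = ∑ p ∈ Pl R l, A (b * p) g n := by
  classical
  have hb0 : absNorm b ≠ 0 := by rwa [Ne, absNorm_eq_zero_iff]
  have hR : ∀ p ∈ Pl R l, A (b * p) g n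
      = ∑ α ∈ (hf (l * n * absNorm b)).toFinset, if α ∈ b * p then g α else 0 := by
    intro p hp
    rw [mem_Pl] at hp
    rw [← sum_shell hf (b * p) g (l * n * absNorm b), A, map_mul, hp,
      show n * (absNorm b * l) = l * n * absNorm b by ring]
  rw [Finset.sum_congr rfl hR, A, sum_shell hf, sum_shell hf, Finset.sum_comm, Finset.smul_sum,
    ← Finset.sum_add_distrib]
  refine Finset.sum_congr rfl fun α hα => ?_
  have hα' : absNorm (span {α}) = l * n * absNorm b := by
    simpa using hα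
  by_cases h : α ∈ b
  · obtain ⟨a, ha⟩ := Ideal.dvd_span_singleton.mpr h
    have hna : l ∣ absNorm a := by
      rw [ha, map_mul, mul_comm (l * n)] at hα'
      rw [Nat.eq_of_mul_eq_mul_left (Nat.pos_of_ne_zero hb0) hα']
      exact dvd_mul_right l n
    have hc := card_dvd h2 hl hu hna
    have h1 : (∑ p ∈ Pl R l, if α ∈ b * p then g α else 0)
        = (((Pl R l).filter (· ∣ a)).card : ℤ) • g α := by
      rw [Finset.sum_congr rfl fun p _ => by rw [if_congr (mem_mul_iff_dvd hb ha) rfl rfl],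
        ← Finset.sum_filter, Finset.sum_const, natCast_zsmul]
    rw [h1, hc, if_pos h, if_congr (mem_mul_iff_dvd hb ha) rfl rfl, add_smul, one_smul, mul_smul,
      ite_smul, one_smul, zero_smul]
  · have h' : ∀ p : Ideal R, α ∉ b * p := fun p hp =>
      h ((Ideal.dvd_iff_le.mp (dvd_mul_right b p)) hp)
    rw [if_neg h, if_neg (h' _), smul_zero, add_zero]
    exact (Finset.sum_eq_zero fun p _ => if_neg (h' p)).symm

omit hl in
theorem norm_l_mul (β : R) : absNorm (span {(l : R) * β}) = l ^ 2 * absNorm (span {β}) := by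
  rw [← Ideal.span_singleton_mul_span_singleton, map_mul, norm_l (R := R) h2]

theorem sum_l (b : Ideal R) (g : R → M) (N N' : ℕ) (h : N' = l ^ 2 * N) :
    (∑ᶠ α ∈ {α : R | α ∈ b * span {(l : R)} ∧ absNorm (span {α}) = N'}, g α)
      = ∑ᶠ β ∈ {β : R | β ∈ b ∧ absNorm (span {β}) = N}, g ((l : R) * β) := by
  have hl0 : (l : R) ≠ 0 := Nat.cast_ne_zero.mpr hl.ne_zero
  refine (finsum_mem_eq_of_bijOn (fun β => (l : R) * β) ?_ fun _ _ => rfl).symm
  refine ⟨?_, ?_, ?_⟩
  · rintro β ⟨hβ, hβ'⟩
    refine ⟨?_, ?_⟩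
    · rw [mul_comm b]
      exact Ideal.mul_mem_mul (Ideal.mem_span_singleton_self _) hβ
    · rw [norm_l_mul h2, hβ', h]
  · intro β _ γ _ hh
    exact mul_left_cancel₀ hl0 hh
  · rintro α ⟨hα, hα'⟩
    rw [mul_comm, Ideal.mem_span_singleton_mul] at hα
    obtain ⟨β, hβ, rfl⟩ := hα
    refine ⟨β, ⟨hβ, ?_⟩, rfl⟩
    rw [norm_l_mul h2, h] at hα'
    exact Nat.eq_of_mul_eq_mul_left (pow_pos hl.pos 2) hα'

/-- **(B)** `T_l`. -/
theorem ser_T (hf : FinShell R) (hu : Unram R l) {b : Ideal R} (hb : b ≠ ⊥) (g : R → M) (n : ℕ) :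
    A b g (l * n) + chi R l • (if l ∣ n then A b (fun α => g ((l : R) * α)) (n / l) else 0)
      = ∑ p ∈ Pl R l, A (b * p) g n := by
  rw [← ser_aux h2 hl hf hu hb g n]
  congr 2
  have hb0 : absNorm b ≠ 0 := by rwa [Ne, absNorm_eq_zero_iff]
  split_ifs with h
  · obtain ⟨m, rfl⟩ := h
    rw [Nat.mul_div_cancel_left _ hl.pos, A, sum_l h2 hl b g (m * absNorm b)]
    ring
  · symm
    apply finsum_mem_eq_zero_of_forall_eq_zero
    rintro α ⟨hα, hα'⟩
    exfalso
    apply h
    rw [mul_comm, Ideal.mem_span_singleton_mul] at hα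
    obtain ⟨β, hβ, rfl⟩ := hα
    rw [norm_l_mul h2] at hα'
    obtain ⟨c, hc⟩ : absNorm b ∣ absNorm (span {β}) :=
      map_dvd absNorm (Ideal.dvd_span_singleton.mpr hβ)
    refine ⟨c, ?_⟩
    rw [hc] at hα'
    have h3 : (l * absNorm b) * (l * c) = (l * absNorm b) * n := by
      linarith [hα']
    exact (Nat.eq_of_mul_eq_mul_left (Nat.mul_pos hl.pos (Nat.pos_of_ne_zero hb0)) h3).symm

/-- **(B)** `l S_l`. -/
theorem ser_S (b : Ideal R) (g : R → M) (n : ℕ) :
    A b (fun α => g ((l : R) * α)) n = A (b * span {(l : R)}) g n := by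
  rw [A, A, ← sum_l h2 hl b g (n * absNorm b) _ rfl, map_mul, norm_l (R := R) h2,
    show n * (absNorm b * l ^ 2) = l ^ 2 * (n * absNorm b) by ring]

end shells

end Vale.Agent.P022.H220
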