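import Vale.Agent.P022.H567.Gch

/-! # P022: the continuous character of `G_K` on a stable line; finite extensions with their norm
([LINE], [EXT] of H567/Gch) -/

open NumberField Matrix
open scoped Topology

noncomputable section

namespace Vale.Agent.P022

namespace H220

lemma smul_cancel {F : Type} [Field F] {v : Fin 2 → F} (hv : v ≠ 0) {a b : F}
    (h : a • v = b • v) : a = b := by
  by_contra hab
  apply hv
  have h1 : (a - b) • v = 0 := by rw [sub_smul, h, sub_self]
  exact (smul_eq_zero.1 h1).resolve_left (sub_ne_zero.2 hab)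

/-- the matrix of `r g` over `E'` -/
def mm {E : Type} [Field E] (E' : Type) [Field E'] [Algebra E E'] (r : GQ →* GL (Fin 2) E)
    (g : GQ) : Matrix (Fin 2) (Fin 2) E' :=
  (r g : Matrix (Fin 2) (Fin 2) E).map (algebraMap E E')

section

variable {K : Type} [Field K] {E : Type} [Field E] {F : Type} [Field F] [Algebra E F]

lemma mm_one (r : GQ →* GL (Fin 2) E) : mm F r 1 = 1 := by
  unfold mm
  rw [map_one, Units.val_one, Matrix.map_one _ (map_zero _) (map_one _)]

lemma mm_mul (r : GQ →* GL (Fin 2) E) (g h : GQ) : mm F r (g * h) = mm F r g * mm F r h := by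
  unfold mm
  rw [map_mul, Units.val_mul, Matrix.map_mul]

/-- the character on a stable line -/
lemma exists_char (j : K →+* Qb) (r : GQ →* GL (Fin 2) E) (v : Fin 2 → F) (hv : v ≠ 0)
    (h : ∀ h : GK j, ∃ a : F, mm F r h *ᵥ v = a • v) :
    ∃ χ : GK j →* Fˣ, ∀ h : GK j, mm F r h *ᵥ v = (χ h : F) • v := by
  choose a ha using h
  have h1 : a 1 = 1 := by
    apply smul_cancel hv
    rw [← ha 1, one_smul]
    change mm F r 1 *ᵥ v = v
    rw [mm_one, Matrix.one_mulVec]
  have h2 : ∀ x y : GK j, a (x * y) = a x * a y := by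
    intro x y
    apply smul_cancel hv
    rw [← ha (x * y)]
    change mm F r (x.1 * y.1) *ᵥ v = _
    rw [mm_mul, ← Matrix.mulVec_mulVec, ha y, Matrix.mulVec_smul, ha x, smul_smul, mul_comm]
  refine ⟨MonoidHom.toHomUnits ⟨⟨a, h1⟩, h2⟩, fun x => ?_⟩
  rw [ha x]
  rfl

end

section

variable {E : Type} [NontriviallyNormedField E]

/-- a continuous representation is close to one on an open subgroup -/
lemma exists_open (r : GQ →* GL (Fin 2) E) (hc : Continuous r) (ε : ℝ) (hε : 0 < ε) :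
    ∃ L : IntermediateField ℚ Qb, FiniteDimensional ℚ L ∧ ∀ g ∈ L.fixingSubgroup,
      ∀ i k, ‖(r g : Matrix (Fin 2) (Fin 2) E) i k - (1 : Matrix (Fin 2) (Fin 2) E) i k‖ < ε := by
  have hc' : Continuous fun g : GQ => (r g : Matrix (Fin 2) (Fin 2) E) :=
    Units.continuous_val.comp hc
  have h1 : ∀ i k, Continuous fun g : GQ => (r g : Matrix (Fin 2) (Fin 2) E) i k :=
    fun i k => hc'.matrix_elem i k
  have h2 : {g : GQ | ∀ i k, ‖(r g : Matrix (Fin 2) (Fin 2) E) i k -
      (1 : Matrix (Fin 2) (Fin 2) E) i k‖ < ε} ∈ 𝓝 (1 : GQ) := by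
    have h3 : ∀ i k, ∀ᶠ g in 𝓝 (1 : GQ), ‖(r g : Matrix (Fin 2) (Fin 2) E) i k -
        (1 : Matrix (Fin 2) (Fin 2) E) i k‖ < ε := by
      intro i k
      have h4 : Filter.Tendsto (fun g : GQ => ‖(r g : Matrix (Fin 2) (Fin 2) E) i k -
          (1 : Matrix (Fin 2) (Fin 2) E) i k‖) (𝓝 1) (𝓝 ‖(r 1 : Matrix (Fin 2) (Fin 2) E) i k -
          (1 : Matrix (Fin 2) (Fin 2) E) i k‖) :=
        (((h1 i k).sub continuous_const).norm).tendsto 1
      rw [map_one, Units.val_one, sub_self, norm_zero] at h4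
      exact h4.eventually (gt_mem_nhds hε)
    exact Filter.eventually_all.2 fun i => Filter.eventually_all.2 fun k => h3 i k
  obtain ⟨L, hL, h3⟩ := (krullTopology_mem_nhds_one_iff ℚ Qb _).1 h2
  exact ⟨L, hL, fun g hg => h3 hg⟩

end

section

variable {K : Type} [Field K] {E : Type} [NontriviallyNormedField E]
  {F : Type} [NontriviallyNormedField F] [IsUltrametricDist F] [NormedAlgebra E F]

lemma char_close (r : GQ →* GL (Fin 2) E) (v : Fin 2 → F) (hv : v ≠ 0) (ε : ℝ) (g : GQ)
    (hg : ∀ i k, ‖(r g : Matrix (Fin 2) (Fin 2) E) i k -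
      (1 : Matrix (Fin 2) (Fin 2) E) i k‖ < ε) (a : F)
    (ha : mm F r g *ᵥ v = a • v) : ‖a - 1‖ < ε := by
  obtain ⟨i, hi⟩ := Finite.exists_max fun k => ‖v k‖
  have hvi : 0 < ‖v i‖ := by
    rw [norm_pos_iff]
    intro h0
    apply hv
    ext k
    have h1 := hi k
    rw [h0, norm_zero] at h1
    exact norm_le_zero_iff.1 h1
  have h1 : (a - 1) * v i = ∑ k, algebraMap E F ((r g : Matrix (Fin 2) (Fin 2) E) i k -
      (1 : Matrix (Fin 2) (Fin 2) E) i k) * v k := by
    have h2 := congrFun ha i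
    have h3 : (mm F r g *ᵥ v) i =
        ∑ k, algebraMap E F ((r g : Matrix (Fin 2) (Fin 2) E) i k) * v k := rfl
    have h4 : v i = ∑ k, algebraMap E F ((1 : Matrix (Fin 2) (Fin 2) E) i k) * v k := by
      have h5 : ((1 : Matrix (Fin 2) (Fin 2) F) *ᵥ v) i = v i := by rw [Matrix.one_mulVec]
      rw [← h5]
      change ∑ k, (1 : Matrix (Fin 2) (Fin 2) F) i k * v k = _
      refine Finset.sum_congr rfl fun k _ => ?_
      rw [Matrix.one_apply, Matrix.one_apply]
      split_ifs <;> simp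
    rw [h3, Pi.smul_apply, smul_eq_mul] at h2
    rw [sub_mul, one_mul, ← h2]
    conv_lhs => rw [h4]
    rw [← Finset.sum_sub_distrib]
    refine Finset.sum_congr rfl fun k _ => ?_
    rw [map_sub, sub_mul]
  have h2 : ∀ k, ‖algebraMap E F ((r g : Matrix (Fin 2) (Fin 2) E) i k -
      (1 : Matrix (Fin 2) (Fin 2) E) i k) * v k‖ < ε * ‖v i‖ := by
    intro k
    rw [norm_mul, norm_algebraMap']
    rcases (norm_nonneg (v k)).eq_or_lt with h3 | h3
    · rw [← h3, mul_zero]
      exact mul_pos (lt_of_le_of_lt (norm_nonneg _) (hg i k)) hvi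
    · calc _ < ε * ‖v k‖ := mul_lt_mul_of_pos_right (hg i k) h3
        _ ≤ ε * ‖v i‖ := mul_le_mul_of_nonneg_left (hi k)
          (lt_of_le_of_lt (norm_nonneg _) (hg i k)).le
  have h3 : ‖a - 1‖ * ‖v i‖ < ε * ‖v i‖ := by
    rw [← norm_mul, h1, Fin.sum_univ_two]
    exact lt_of_le_of_lt (IsUltrametricDist.norm_add_le_max _ _) (max_lt (h2 0) (h2 1))
  exact lt_of_mul_lt_mul_right h3 hvi.le

omit [IsUltrametricDist F] in
/-- a character of `G_K` which is close to one on open subgroups is continuous -/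
lemma continuous_char (j : K →+* Qb) (χ : GK j →* Fˣ)
    (h : ∀ ε : ℝ, 0 < ε → ∃ L : IntermediateField ℚ Qb, FiniteDimensional ℚ L ∧
      ∀ h : GK j, (h : GQ) ∈ L.fixingSubgroup → ‖(χ h : F) - 1‖ < ε) : Continuous χ := by
  apply continuous_of_continuousAt_one
  unfold ContinuousAt
  rw [Units.isEmbedding_val₀.tendsto_nhds_iff, Metric.tendsto_nhds]
  intro ε hε
  obtain ⟨L, hL, hL1⟩ := h ε hε
  have hopen : IsOpen (L.fixingSubgroup : Set GQ) := L.fixingSubgroup_isOpen
  have h1 : {x : GK j | (x : GQ) ∈ L.fixingSubgroup} ∈ 𝓝 (1 : GK j) :=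
    (hopen.preimage continuous_subtype_val).mem_nhds (by
      change ((1 : GK j) : GQ) ∈ L.fixingSubgroup
      exact L.fixingSubgroup.one_mem)
  filter_upwards [h1] with x hx
  rw [Function.comp_apply, map_one, Units.val_one, dist_eq_norm]
  exact hL1 x hx

end

end H220

namespace H220

/-- **[LINE]** -/
theorem LINE : C.LINEStmt := by
  intro K _ _ _ j E E' _ _ _ _ _ _ _ _ _ r hc hi w hw hst
  obtain ⟨χ, hχ⟩ := exists_char j r w hw hst
  refine ⟨χ, continuous_char j χ fun ε hε => ?_, hχ, hi w hw⟩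
  obtain ⟨L, hL, h1⟩ := exists_open r hc ε hε
  exact ⟨L, hL, fun h hh => char_close r w hw ε h (h1 h hh) _ (hχ h)⟩

/-- the norm on a finite extension -/
lemma ext_aux (E : Type) [NontriviallyNormedField E] [NormedAlgebra ℚ_[2] E]
    [FiniteDimensional ℚ_[2] E] (F : Type) [Field F] [Algebra E F] [FiniteDimensional E F]
    (Ω : Type) [Field Ω] [Algebra E Ω] (i : F →ₐ[E] Ω) (w : Fin 2 → Ω) (w' : Fin 2 → F)
    (h : ∀ a, i (w' a) = w a) :
    ∃ (E' : Type) (_ : NontriviallyNormedField E') (_ : NormedAlgebra ℚ_[2] E')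
      (_ : IsUltrametricDist E') (_ : FiniteDimensional ℚ_[2] E') (_ : NormedAlgebra E E')
      (_ : IsScalarTower ℚ_[2] E E') (i : E' →ₐ[E] Ω) (w' : Fin 2 → E'), ∀ a, i (w' a) = w a := by
  have hcE : CompleteSpace E := FiniteDimensional.complete ℚ_[2] E
  have huE : IsUltrametricDist E := IsUltrametricDist.of_normedAlgebra ℚ_[2]
  let i1 : NontriviallyNormedField F := spectralNorm.nontriviallyNormedField E F
  let i2 : NormedAlgebra E F := spectralNorm.normedAlgebra E F
  let i3 : NormedAlgebra ℚ_[2] F := NormedAlgebra.restrictScalars ℚ_[2] E F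
  have i4 : IsScalarTower ℚ_[2] E F := IsScalarTower.of_algebraMap_eq fun x => rfl
  have i5 : FiniteDimensional ℚ_[2] F := FiniteDimensional.trans ℚ_[2] E F
  have i6 : IsUltrametricDist F := IsUltrametricDist.of_normedAlgebra ℚ_[2]
  exact ⟨F, i1, i3, i6, i5, i2, i4, i, w', h⟩

/-- **[EXT]** -/
theorem EXT : C.EXTStmt := by
  intro E _ _ _ w
  let F : IntermediateField E (AlgebraicClosure E) := IntermediateField.adjoin E (Set.range w)
  have hfin : FiniteDimensional E F :=
    IntermediateField.finiteDimensional_adjoin fun x _ => Algebra.IsIntegral.isIntegral x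
  exact ext_aux E F (AlgebraicClosure E) F.val w
    (fun a => ⟨w a, IntermediateField.subset_adjoin E _ ⟨a, rfl⟩⟩) fun a => rfl

end H220

end Vale.Agent.P022
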