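import Vale.Agent.P022.H220.Uni

/-!
# P022, weight-free Hecke calculus, normalisation `c(n, d) = d ^ (k - 1) a_n(⟨d⟩ G)`
-/

open Complex UpperHalfPlane CongruenceSubgroup Matrix
open scoped Real MatrixGroups ModularForm

noncomputable section

namespace Vale.Agent.P022.H220

section formal

variable (M : Type*) [AddCommGroup M]

/-- the formal operator `T_ℓ` -/
def VT (ℓ : ℕ) : Module.End ℤ (ℕ → ℕ → M) where
  toFun c n d := c (ℓ * n) d + if ℓ ∣ n then c (n / ℓ) (ℓ * d) else 0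
  map_add' x y := by
    funext n d
    simp only [Pi.add_apply]
    split_ifs <;> abel
  map_smul' z x := by
    funext n d
    simp only [Pi.smul_apply, RingHom.id_apply, smul_add]
    split_ifs <;> simp

/-- the formal operator `ℓ S_ℓ` -/
def VS (ℓ : ℕ) : Module.End ℤ (ℕ → ℕ → M) where
  toFun c n d := c n (ℓ * d)
  map_add' _ _ := rfl
  map_smul' _ _ := rfl

/-- polynomials in the formal operators -/
def Wz (N : ℕ) : FreeAlgebra ℤ (Gen N) →ₐ[ℤ] Module.End ℤ (ℕ → ℕ → M) :=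
  FreeAlgebra.lift ℤ (Sum.elim (fun ℓ => VT M ℓ.1) (fun ℓ => VS M ℓ.1))

variable {M}

theorem VT_apply (ℓ : ℕ) (c : ℕ → ℕ → M) (n d : ℕ) :
    VT M ℓ c n d = c (ℓ * n) d + if ℓ ∣ n then c (n / ℓ) (ℓ * d) else 0 := rfl

theorem VS_apply (ℓ : ℕ) (c : ℕ → ℕ → M) (n d : ℕ) : VS M ℓ c n d = c n (ℓ * d) := rfl

theorem wz_T {N : ℕ} (ℓ : PA N) (c : ℕ → ℕ → M) (n d : ℕ) :
    Wz M N (FreeAlgebra.ι ℤ (Sum.inl ℓ)) c n d =
      c (ℓ.1 * n) d + if ℓ.1 ∣ n then c (n / ℓ.1) (ℓ.1 * d) else 0 := by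
  rw [Wz, FreeAlgebra.lift_ι_apply]
  rfl

theorem wz_S {N : ℕ} (ℓ : PA N) (c : ℕ → ℕ → M) (n d : ℕ) :
    Wz M N (FreeAlgebra.ι ℤ (Sum.inr ℓ)) c n d = c n (ℓ.1 * d) := by
  rw [Wz, FreeAlgebra.lift_ι_apply]
  rfl

theorem wz_algebraMap {N : ℕ} (r : ℤ) (c : ℕ → ℕ → M) :
    Wz M N (algebraMap ℤ _ r) c = r • c := by
  rw [AlgHom.commutes, Module.algebraMap_end_apply]

/-- functions with values in `A` at all `d` prime to `2N` -/
def Zin (N : ℕ) (A : AddSubgroup M) : AddSubgroup (ℕ → ℕ → M) where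
  carrier := {c | ∀ n d, Nat.Coprime d (2 * N) → c n d ∈ A}
  zero_mem' := fun _ _ _ => A.zero_mem
  add_mem' := fun hx hy n d h => A.add_mem (hx n d h) (hy n d h)
  neg_mem' := fun hx n d h => A.neg_mem (hx n d h)

theorem mem_Zin {N : ℕ} {A : AddSubgroup M} {c : ℕ → ℕ → M} :
    c ∈ Zin N A ↔ ∀ n d, Nat.Coprime d (2 * N) → c n d ∈ A := Iff.rfl

theorem genZ_mem {N : ℕ} {A : AddSubgroup M} (s : Gen N) {c : ℕ → ℕ → M} (hc : c ∈ Zin N A) :
    Wz M N (FreeAlgebra.ι ℤ s) c ∈ Zin N A := by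
  intro n d hd
  rcases s with ℓ | ℓ
  · rw [wz_T]
    refine A.add_mem (hc _ _ hd) ?_
    split_ifs
    · exact hc _ _ (Nat.Coprime.mul_left (PA.coprime2 ℓ) hd)
    · exact A.zero_mem
  · rw [wz_S]
    exact hc _ _ (Nat.Coprime.mul_left (PA.coprime2 ℓ) hd)

/-- the formal operators preserve congruences -/
theorem wz_mem {N : ℕ} {A : AddSubgroup M} (P : FreeAlgebra ℤ (Gen N)) :
    ∀ {c : ℕ → ℕ → M}, c ∈ Zin N A → Wz M N P c ∈ Zin N A := by
  induction P using FreeAlgebra.induction with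
  | grade0 r =>
    intro c hc
    rw [wz_algebraMap]
    exact (Zin N A).zsmul_mem hc r
  | grade1 s => exact genZ_mem s
  | mul P Q hP hQ =>
    intro c hc
    rw [map_mul]
    exact hP (hQ hc)
  | add P Q hP hQ =>
    intro c hc
    rw [map_add]
    exact (Zin N A).add_mem (hP hc) (hQ hc)

theorem wz_cong {N : ℕ} {A : AddSubgroup M} (P : FreeAlgebra ℤ (Gen N)) {c c' : ℕ → ℕ → M}
    (h : c - c' ∈ Zin N A) : Wz M N P c - Wz M N P c' ∈ Zin N A := by
  rw [← map_sub]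
  exact wz_mem P h

/-- only the values at `d` prime to `2N` matter -/
theorem wz_congr {N : ℕ} (P : FreeAlgebra ℤ (Gen N)) {c c' : ℕ → ℕ → M}
    (h : ∀ n d, Nat.Coprime d (2 * N) → c n d = c' n d) (n d : ℕ) (hd : Nat.Coprime d (2 * N)) :
    Wz M N P c n d = Wz M N P c' n d := by
  have h1 : c - c' ∈ Zin N (⊥ : AddSubgroup M) := by
    intro n d hd
    rw [AddSubgroup.mem_bot, Pi.sub_apply, Pi.sub_apply, h n d hd, sub_self]
  have h2 := wz_cong P h1 n d hd
  rw [AddSubgroup.mem_bot, Pi.sub_apply, Pi.sub_apply, sub_eq_zero] at h2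
  exact h2

/-- functoriality -/
theorem wz_map {M' : Type*} [AddCommGroup M'] {N : ℕ} (g : M →+ M') (P : FreeAlgebra ℤ (Gen N)) :
    ∀ (c : ℕ → ℕ → M), Wz M' N P (fun n d => g (c n d)) = fun n d => g (Wz M N P c n d) := by
  induction P using FreeAlgebra.induction with
  | grade0 r =>
    intro c
    rw [wz_algebraMap, wz_algebraMap]
    funext n d
    simp
  | grade1 s =>
    intro c
    funext n d
    rcases s with ℓ | ℓ
    · rw [wz_T, wz_T, map_add]
      split_ifs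
      · rfl
      · rw [map_zero]
    · rw [wz_S, wz_S]
  | mul P Q hP hQ =>
    intro c
    rw [map_mul, map_mul, Module.End.mul_apply, Module.End.mul_apply, hQ, hP]
  | add P Q hP hQ =>
    intro c
    rw [map_add, map_add, LinearMap.add_apply, LinearMap.add_apply, hQ, hP]
    funext n d
    simp

end formal

/-! ### forms -/

/-- `c n d = d ^ i a_n(⟨d⟩ G)`, `G` of weight `i + 1`, for all `d` prime to `N` -/
def IsZ (N i : ℕ) (G : ℍ → ℂ) (c : ℕ → ℕ → ℂ) : Prop :=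
  ∀ (d : ℕ) (h : Nat.Coprime d N) (τ : ℍ),
    HasSum (fun n : ℕ => c n d * cexp (2 * π * Complex.I * n * (τ : ℂ) / (1 : ℕ)))
      ((d : ℂ) ^ i * (G ∣[((i + 1 : ℕ) : ℤ)] gd N d h) τ)

theorem IsZ.toC {N i : ℕ} {G : ℍ → ℂ} {c : ℕ → ℕ → ℂ} (h : IsZ N i G c) :
    IsC N (i + 1) G (fun n d => (d : ℂ) * c n d) := by
  intro d hd τ
  have h1 := (h d hd τ).mul_left (d : ℂ)
  have e : (d : ℂ) ^ (i + 1) * (G ∣[((i + 1 : ℕ) : ℤ)] gd N d hd) τ =
      (d : ℂ) * ((d : ℂ) ^ i * (G ∣[((i + 1 : ℕ) : ℤ)] gd N d hd) τ) := by ring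
  rw [e]
  exact hs_congr' h1 fun n => by ring

theorem exists_isZ {N : ℕ} [NeZero N] {i : ℕ} (G : MF N (i + 1)) : ∃ c, IsZ N i G c := by
  classical
  have h1 : ∀ (d : ℕ), ∃ a : ℕ → ℂ, ∀ (h : Nat.Coprime d N) (τ : ℍ),
      HasSum (fun n : ℕ => a n * cexp (2 * π * Complex.I * n * (τ : ℂ) / (1 : ℕ)))
        (((G : ℍ → ℂ) ∣[((i + 1 : ℕ) : ℤ)] gd N d h) τ) := by
    intro d
    by_cases h : Nat.Coprime d N
    · obtain ⟨a, ha⟩ := hasSum_form (H783.slG0 (H783.gd_mem h) (i + 1) G)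
      refine ⟨a, fun h' τ => ?_⟩
      have := ha τ
      rw [H783.slG0_coe] at this
      exact this
    · exact ⟨0, fun h' => absurd h' h⟩
  choose a ha using h1
  exact ⟨fun n d => (d : ℂ) ^ i * a d n, fun d h τ =>
    hs_congr' ((ha d h τ).mul_left ((d : ℂ) ^ i)) fun n => by ring⟩

theorem IsZ.unique {N i : ℕ} {G : ℍ → ℂ} {c e : ℕ → ℕ → ℂ} (hc : IsZ N i G c)
    (he : IsZ N i G e) (n d : ℕ) (h : Nat.Coprime d N) : c n d = e n d :=
  Ex.unique (a := fun n => c n d) (b := fun n => e n d) one_pos (hc d h) (he d h) n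

/-- the formal operators of the two normalisations correspond -/
theorem wd_wz {N : ℕ} (P : FreeAlgebra ℤ (Gen N)) : ∀ (c : ℕ → ℕ → ℂ),
    Wd N P (fun n d => (d : ℂ) * c n d) = fun (n d : ℕ) => (d : ℂ) * Wz ℂ N P c n d := by
  induction P using FreeAlgebra.induction with
  | grade0 r =>
    intro c
    rw [wz_algebraMap, AlgHom.commutes, Module.algebraMap_end_apply]
    funext n d
    simp
    ring
  | grade1 s =>
    intro c
    rw [Wd, FreeAlgebra.lift_ι_apply]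
    funext n d
    rcases s with ℓ | ℓ
    · have hℓ0 : (ℓ.1 : ℂ) ≠ 0 := by exact_mod_cast ℓ.2.1.ne_zero
      rw [wz_T]
      simp only [Sum.elim_inl, UT_apply]
      split_ifs
      · push_cast
        field_simp
      · ring
    · have hℓ0 : (ℓ.1 : ℂ) ≠ 0 := by exact_mod_cast ℓ.2.1.ne_zero
      rw [wz_S]
      simp only [Sum.elim_inr, US_apply]
      push_cast
      field_simp
  | mul P Q hP hQ =>
    intro c
    rw [map_mul, map_mul, Module.End.mul_apply, Module.End.mul_apply, hQ, hP]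
  | add P Q hP hQ =>
    intro c
    rw [map_add, map_add, LinearMap.add_apply, LinearMap.add_apply, hQ, hP]
    funext n d
    simp only [Pi.add_apply]
    ring

/-- a polynomial which kills the weight of `G` kills its function -/
theorem wz_eq_zero {N : ℕ} [NeZero N] (i : ℕ) (P : FreeAlgebra ℤ (Gen N))
    (hP : FreeAlgebra.lift ℤ (fun s => gHk N s i) P = 0) (G : MF N (i + 1)) {c : ℕ → ℕ → ℂ}
    (hc : IsZ N i G c) (n d : ℕ) (h : Nat.Coprime d N) (hd : d ≠ 0) : Wz ℂ N P c n d = 0 := by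
  have h1 := wd_eq_zero i P hP G hc.toC n d h
  rw [wd_wz] at h1
  have hd' : (d : ℂ) ≠ 0 := by exact_mod_cast hd
  exact (mul_eq_zero.mp h1).resolve_left hd'

/-- **[UNI]**, normalisation `d ^ (k - 1)`: if `c` is congruent modulo `A` to a combination (with
arbitrary complex coefficients) of the functions of forms of weights killed by `P`, then `P c` is
`0` modulo `A` -/
theorem killZ {N : ℕ} [NeZero N] {A : AddSubgroup ℂ} {J : Type} [Fintype J]
    (i : J → ℕ) (G : ∀ j, MF N (i j + 1)) (b : J → ℂ) (cG : J → ℕ → ℕ → ℂ)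
    (hG : ∀ j, IsZ N (i j) (G j) (cG j)) {c : ℕ → ℕ → ℂ}
    (hc : ∀ n d, Nat.Coprime d (2 * N) → c n d - ∑ j, b j * cG j n d ∈ A)
    (P : FreeAlgebra ℤ (Gen N)) (hP : ∀ j, FreeAlgebra.lift ℤ (fun s => gHk N s (i j)) P = 0)
    (n d : ℕ) (hd : Nat.Coprime d (2 * N)) : Wz ℂ N P c n d ∈ A := by
  have hd0 : d ≠ 0 := by
    rintro rfl
    rw [Nat.coprime_zero_left] at hd
    omega
  have h1 : c - (fun n d => ∑ j, b j * cG j n d) ∈ Zin N A := by
    intro n d hd
    exact hc n d hd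
  have h2 := wz_cong P h1 n d hd
  have h3 : Wz ℂ N P (fun n d => ∑ j, b j * cG j n d) n d = 0 := by
    have e : (fun n d => ∑ j, b j * cG j n d) =
        ∑ j, (fun n d => AddMonoidHom.mulLeft (b j) (cG j n d)) := by
      funext n d
      rw [Finset.sum_apply, Finset.sum_apply]
      rfl
    rw [e, map_sum, Finset.sum_apply, Finset.sum_apply]
    refine Finset.sum_eq_zero fun j _ => ?_
    rw [wz_map]
    simp only
    rw [wz_eq_zero (i j) P (hP j) (G j) (hG j) n d (Nat.Coprime.coprime_mul_left_right hd) hd0,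
      map_zero]
  rw [Pi.sub_apply, Pi.sub_apply, h3, sub_zero] at h2
  exact h2

end Vale.Agent.P022.H220
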